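import Vale.Agent.P292.Bdl.B7
import Vale.Agent.P292.Bdl.B5
import Vale.Agent.P292.Bdl.B4
import Vale.Agent.P292.Bdl.B3

/-! Automorphisms of prime order of adjoint varieties have fixed points (no torus is assumed). -/

namespace Vale.Agent.P292

open Module LieAlgebra

universe u

section Lie

variable {g : Type u} [LieRing g] [LieAlgebra ℂ g] [FiniteDimensional ℂ g]

/-- A non-nilpotent endomorphism of a finite-dimensional complex space has a nonzero
eigenvalue. -/
theorem exists_eigenvector_of_not_isNilpotent {V : Type u} [AddCommGroup V] [Module ℂ V]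
    [FiniteDimensional ℂ V] (f : Module.End ℂ V) (hf : ¬ IsNilpotent f) :
    ∃ (l : ℂ) (v : V), l ≠ 0 ∧ v ≠ 0 ∧ f v = l • v := by
  by_contra hcon
  push Not at hcon
  apply hf
  have hbot : ∀ l : ℂ, l ≠ 0 → Module.End.maxGenEigenspace f l = ⊥ := by
    intro l hl
    by_contra hne
    have h1 : f.HasEigenvalue l := by
      by_contra hev
      apply hne
      have h2 : Module.End.eigenspace f l = ⊥ := by
        rwa [Module.End.hasEigenvalue_iff, not_not] at hev
      rw [eq_bot_iff]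
      intro v hv
      rw [Module.End.mem_maxGenEigenspace] at hv
      obtain ⟨k, hk⟩ := hv
      rw [Submodule.mem_bot]
      have hinj : ∀ w : V, (f - l • 1) w = 0 → w = 0 := by
        intro w hw
        have h3 : w ∈ Module.End.eigenspace f l := by
          rw [Module.End.mem_eigenspace_iff]
          have h4 : f w - l • w = 0 := by simpa using hw
          exact sub_eq_zero.1 h4
        rw [h2] at h3
        exact (Submodule.mem_bot _).1 h3
      induction k generalizing v with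
      | zero => simpa using hk
      | succ k ih =>
        apply hinj
        apply ih
        rw [← Module.End.mul_apply, ← pow_succ]
        exact hk
    obtain ⟨v, hv⟩ := h1.exists_hasEigenvector
    exact hcon l v hl hv.2 (Module.End.mem_eigenspace_iff.1 hv.1)
  have htop : Module.End.maxGenEigenspace f 0 = ⊤ := by
    rw [eq_top_iff, ← Module.End.iSup_maxGenEigenspace_eq_top f]
    refine iSup_le fun l => ?_
    by_cases hl : l = 0
    · rw [hl]
    · rw [hbot l hl]
      exact bot_le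
  have hfin := Module.End.maxGenEigenspace_eq_genEigenspace_finrank f (0 : ℂ)
  refine ⟨finrank ℂ V, ?_⟩
  ext v
  have hv : v ∈ Module.End.maxGenEigenspace f 0 := by rw [htop]; trivial
  rw [hfin, Module.End.mem_genEigenspace_nat] at hv
  simpa using hv

/-- An automorphism of prime order of a simple Lie algebra fixes a nonzero integral element. -/
theorem exists_isInt_of_prime [IsSimple ℂ g] (σ : g ≃ₗ⁅ℂ⁆ g) {p : ℕ} (hp : p.Prime)
    (hσp : ∀ x, (⇑σ)^[p] x = x) : ∃ h₀ : g, h₀ ≠ 0 ∧ σ h₀ = h₀ ∧ IsInt h₀ := by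
  have hx : ∃ x : g, σ x = x ∧ ¬ IsNilpotent (ad ℂ g x) := by
    by_contra hcon
    push Not at hcon
    have h1 : Subsingleton g := subsingleton_of_fixed_nilpotent σ hp hσp hcon
    exact LieAlgebra.IsSimple.non_abelian ℂ (L := g) ⟨fun x y => Subsingleton.elim _ _⟩
  obtain ⟨x, hσx, hx⟩ := hx
  obtain ⟨l, v, hl, hv, hxv⟩ := exists_eigenvector_of_not_isNilpotent (ad ℂ g x) hx
  have hx0 : x ≠ 0 := by
    rintro rfl
    exact hx (by rw [map_zero]; exact IsNilpotent.zero)
  obtain ⟨u, hu, hσu, -, i, j, hij, huv, hux⟩ := exists_isInt σ (h := 0) hσx (zero_lie x) hl hv hx0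
    (by rwa [ad_apply] at hxv) (w := x) (by rw [lie_self, zero_smul])
  refine ⟨u, ?_, hσu, hu⟩
  rintro rfl
  rw [zero_lie, eq_comm, smul_eq_zero] at huv hux
  have h1 := huv.resolve_right hv
  have h2 := hux.resolve_right hx0
  exact hij (by exact_mod_cast h1.trans h2.symm)

end Lie

variable {R : Type u} [CommRing R] [Algebra ℂ R] {𝒜 : ℕ → Submodule ℂ R} [GradedAlgebra 𝒜]
  {P : R →ₗ[ℂ] R →ₗ[ℂ] R}

/-- An automorphism of prime order of an adjoint variety has a fixed point. -/
theorem exists_fixed_point_noTorus (hX : IsContactFano 𝒜 P) (hadj : IsAdjointVariety 𝒜 P)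
    (σ : R ≃ₐ[ℂ] R) (hσ𝒜 : ∀ k, ∀ r ∈ 𝒜 k, σ r ∈ 𝒜 k)
    (hσP : ∀ r s, σ (P r s) = P (σ r) (σ s)) {p : ℕ} (hp : p.Prime)
    (hσp : ∀ r, (⇑σ)^[p] r = r) :
    ∃ x : R →ₐ[ℂ] ℂ, ¬ IsVertex 𝒜 x ∧ ∃ c : ℂ, ∀ k, ∀ r ∈ 𝒜 k, x (σ r) = c ^ k * x r := by
  obtain ⟨g, _, _, _, _, φ, _, hφ, hrange, hbr, hgen, -, -⟩ := hadj
  have hmem : ∀ x : g, φ x ∈ 𝒜 1 := fun x => hrange ▸ LinearMap.mem_range_self φ x
  -- the automorphism of `g`
  have hex : ∀ x : g, ∃ y : g, φ y = σ (φ x) := by
    intro x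
    have h1 : σ (φ x) ∈ LinearMap.range φ := hrange ▸ hσ𝒜 1 _ (hmem x)
    exact h1
  choose f hf using hex
  let F : g →ₗ[ℂ] g :=
    { toFun := f
      map_add' := fun x y => hφ (by rw [hf, map_add, map_add, map_add, hf, hf])
      map_smul' := fun c x => hφ (by
        rw [hf, map_smul, map_smul, RingHom.id_apply, map_smul, hf]) }
  have hF : ∀ x, φ (F x) = σ (φ x) := hf
  have hFinj : Function.Injective F := by
    intro x y hxy
    have h1 : σ (φ x) = σ (φ y) := by rw [← hF, ← hF, hxy]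
    exact hφ (σ.injective h1)
  let e : g ≃ₗ[ℂ] g := LinearEquiv.ofInjectiveEndo F hFinj
  let σg : g ≃ₗ⁅ℂ⁆ g :=
    { e with
      map_lie' := fun {x y} => by
        apply hφ
        show φ (F ⁅x, y⁆) = φ ⁅F x, F y⁆
        rw [hF, hbr, hσP, hbr, hF, hF] }
  have hσg : ∀ x, φ (σg x) = σ (φ x) := fun x => hF x
  have hiter : ∀ (n : ℕ) (x : g), φ ((⇑σg)^[n] x) = (⇑σ)^[n] (φ x) := by
    intro n
    induction n with
    | zero => intro x; rfl
    | succ n ih => intro x; rw [Function.iterate_succ_apply, Function.iterate_succ_apply, ih, hσg]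
  have hσgp : ∀ x, (⇑σg)^[p] x = x := fun x => hφ (by rw [hiter, hσp])
  obtain ⟨h₀, h₀0, hσh₀, hint⟩ := exists_isInt_of_prime σg hp hσgp
  obtain ⟨h, h0, hh, hσh, a, v₁, ha, hv₁⟩ := exists_isolated σg hp hσgp hσh₀ h₀0 hint
  exact exists_fixed_of_isolated hX hφ hrange hbr hgen σ hσ𝒜 hσP h0 hh
    (by rw [← hσg, hσh]) ha hv₁

end Vale.Agent.P292
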