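import Mathlib

/-! Roots of polynomials over valuation rings; the generic point of a divisor is met. -/

namespace Vale.Agent.P292

open Polynomial

universe u v

/-- A polynomial with coefficients in a valuation ring of an algebraically closed field, whose
constant coefficient is not a unit and one of whose coefficients is a unit, has a root in the
maximal ideal. -/
theorem exists_root_lt_one {K : Type u} [Field K] [IsAlgClosed K] (O : ValuationSubring K)
    (p : K[X]) (hp : ∀ i, O.valuation (p.coeff i) ≤ 1) (h0 : O.valuation (p.coeff 0) < 1)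
    (h1 : ∃ i, O.valuation (p.coeff i) = 1) : ∃ a : K, O.valuation a < 1 ∧ p.eval a = 0 := by
  classical
  have hp0 : p ≠ 0 := by
    rintro rfl
    obtain ⟨i, hi⟩ := h1
    rw [coeff_zero, map_zero] at hi
    exact zero_ne_one hi
  by_contra hcon
  push Not at hcon
  -- all the roots have valuation at least one
  have hroot : ∀ a ∈ p.roots, 1 ≤ O.valuation a := by
    intro a ha
    by_contra hlt
    exact hcon a (not_le.1 hlt) (isRoot_of_mem_roots ha)
  -- bound for the coefficients of a product
  have key : ∀ m : Multiset K, (∀ a ∈ m, 1 ≤ O.valuation a) →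
      ∀ i, O.valuation ((m.map fun a => X - C a).prod.coeff i) ≤
        O.valuation ((m.map fun a => X - C a).prod.coeff 0) := by
    intro m
    induction m using Multiset.induction_on with
    | empty =>
      intro _ i
      simp only [Multiset.map_zero, Multiset.prod_zero]
      rcases i with _ | i
      · exact le_rfl
      · rw [coeff_one, if_neg (Nat.succ_ne_zero i).symm.symm, map_zero]
        exact zero_le
    | cons a m ih =>
      intro hm i
      have ih' := ih fun b hb => hm b (Multiset.mem_cons_of_mem hb)
      have ha := hm a (Multiset.mem_cons_self a m)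
      rw [Multiset.map_cons, Multiset.prod_cons]
      set q := (m.map fun a => X - C a).prod with hq
      have hc0 : ((X - C a) * q).coeff 0 = -(a * q.coeff 0) := by
        rw [sub_mul, coeff_sub, coeff_C_mul, mul_coeff_zero, coeff_X_zero, zero_mul, zero_sub]
      rw [hc0, Valuation.map_neg, map_mul]
      have hle : O.valuation (q.coeff 0) ≤ O.valuation a * O.valuation (q.coeff 0) :=
        le_mul_of_one_le_left' ha
      rcases i with _ | i
      · rw [hc0, Valuation.map_neg, map_mul]
      · rw [sub_mul, coeff_sub, coeff_C_mul, coeff_X_mul]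
        refine (O.valuation.map_sub _ _).trans (max_le ?_ ?_)
        · exact (ih' i).trans hle
        · rw [map_mul]
          exact mul_le_mul_right (ih' (i + 1)) _
  obtain ⟨i, hi⟩ := h1
  have hsplit : p = C p.leadingCoeff * (p.roots.map fun a => X - C a).prod :=
    (IsAlgClosed.splits p).eq_prod_roots
  have h2 := key p.roots hroot i
  have h3 : O.valuation (p.coeff i) ≤ O.valuation (p.coeff 0) := by
    rw [hsplit, coeff_C_mul, coeff_C_mul, map_mul, map_mul]
    exact mul_le_mul_right h2 _
  rw [hi] at h3
  exact absurd h0 (not_lt.2 h3)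

/-- The prime version: a family of polynomials over a valuation ring whose values at `0` reduce
to the generic point of `P` has a root near `0` in `V(g₀)`, `g₀ ∈ P`, which is not outside of the
locus `P`. -/
theorem exists_root_family {A : Type v} [CommRing A] {K : Type u} [Field K] [IsAlgClosed K]
    (O : ValuationSubring K) (f : A →+* K[X]) (hf : ∀ r i, O.valuation ((f r).coeff i) ≤ 1)
    {g₀ : A} (hg : O.valuation ((f g₀).coeff 0) < 1)
    (hg' : ∃ i, O.valuation ((f g₀).coeff i) = 1) :
    ∃ a : K, O.valuation a < 1 ∧ (f g₀).eval a = 0 ∧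
      ∀ r, (f r).eval a = 0 → O.valuation ((f r).coeff 0) < 1 := by
  obtain ⟨a, ha, ha0⟩ := exists_root_lt_one O (f g₀) (hf g₀) hg hg'
  refine ⟨a, ha, ha0, fun r hr => ?_⟩
  have h1 : f r = divX (f r) * X + C ((f r).coeff 0) := (divX_mul_X_add (f r)).symm
  have h2 : (f r).coeff 0 = -((divX (f r)).eval a * a) := by
    have h3 : (divX (f r)).eval a * a + (f r).coeff 0 = 0 := by
      have h4 := congrArg (eval a) h1
      rw [hr, eval_add, eval_mul, eval_X, eval_C] at h4
      exact h4.symm
    linear_combination h3
  have h5 : O.valuation ((divX (f r)).eval a) ≤ 1 := by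
    rw [eval_eq_sum_range]
    refine O.valuation.map_sum_le fun i _ => ?_
    rw [map_mul, map_pow, coeff_divX]
    exact mul_le_one' (hf r (i + 1)) (pow_le_one₀ zero_le ha.le)
  rw [h2, Valuation.map_neg, map_mul]
  exact (mul_le_of_le_one_left' h5).trans_lt ha

/-- If moreover `A` is a domain and the prime of the elements whose value at `0` is not a unit
contains no smaller nonzero prime, then all its elements vanish at the root. -/
theorem exists_root_prime {A : Type v} [CommRing A] {K : Type u} [Field K] [IsAlgClosed K]
    (O : ValuationSubring K) (f : A →+* K[X]) (hf : ∀ r i, O.valuation ((f r).coeff i) ≤ 1)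
    (P : Ideal A) (hP : ∀ r, r ∈ P ↔ O.valuation ((f r).coeff 0) < 1)
    (hmin : ∀ Q : Ideal A, Q.IsPrime → Q ≤ P → Q ≠ ⊥ → Q = P)
    {g₀ : A} (hg : g₀ ∈ P) (hg0 : g₀ ≠ 0)
    (hg' : ∃ i, O.valuation ((f g₀).coeff i) = 1) :
    ∃ a : K, O.valuation a < 1 ∧ ∀ r, (f r).eval a = 0 ↔ r ∈ P := by
  obtain ⟨a, ha, ha0, hle⟩ := exists_root_family O f hf ((hP g₀).1 hg) hg'
  refine ⟨a, ha, ?_⟩
  let Q : Ideal A := RingHom.ker ((evalRingHom a).comp f)
  have hQ : ∀ r, r ∈ Q ↔ (f r).eval a = 0 := fun r => RingHom.mem_ker
  have hQP : Q ≤ P := fun r hr => (hP r).2 (hle r ((hQ r).1 hr))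
  have h1 : Q = P := hmin Q (RingHom.ker_isPrime _) hQP (fun hbot => hg0 (by
    have h2 : g₀ ∈ Q := (hQ g₀).2 ha0
    rw [hbot] at h2
    exact h2))
  intro r
  rw [← hQ, h1]

end Vale.Agent.P292
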