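import Vale.Agent.P292.Bdl.B1

/-! # The Newton slope of a conic over a valued field. -/

namespace Vale.Agent.P292

open Polynomial WithZero

universe u v

set_option linter.all false

variable {R : Type u} [CommRing R] [Algebra ℂ R] {𝒜 : ℕ → Submodule ℂ R} [GradedAlgebra 𝒜]
  {P : R →ₗ[ℂ] R →ₗ[ℂ] R}

/-- Scaling a finite family in an algebraically closed valued field. -/
theorem nw_scale {L : Type v} [Field L] [IsAlgClosed L] {Γ : Type*}
    [LinearOrderedCommGroupWithZero Γ] (v : Valuation L Γ) {ι : Type*} (s : Finset ι)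
    (x : ι → L) (n : ι → ℕ) (hn : ∀ i ∈ s, 0 < n i) (hne : ∃ i ∈ s, x i ≠ 0) :
    ∃ θ : L, θ ≠ 0 ∧ (∀ i ∈ s, v (θ ^ n i * x i) ≤ 1) ∧ ∃ i ∈ s, v (θ ^ n i * x i) = 1 := by
  classical
  have h1 : ∀ i ∈ s, ∃ θ : L, x i ≠ 0 → θ ^ n i * x i = 1 := by
    intro i hi
    obtain ⟨θ, hθ⟩ := IsAlgClosed.exists_pow_nat_eq (x i)⁻¹ (hn i hi)
    exact ⟨θ, fun h => by rw [hθ, inv_mul_cancel₀ h]⟩
  choose! θ hθ using h1
  obtain ⟨i₀, hi₀, hmin⟩ := Finset.exists_min_image (s.filter fun i => x i ≠ 0)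
    (fun i => v (θ i)) (by
      obtain ⟨i, hi, hxi⟩ := hne
      exact ⟨i, Finset.mem_filter.mpr ⟨hi, hxi⟩⟩)
  rw [Finset.mem_filter] at hi₀
  refine ⟨θ i₀, ?_, fun i hi => ?_, i₀, hi₀.1, ?_⟩
  · intro h0
    have := hθ i₀ hi₀.1 hi₀.2
    rw [h0, zero_pow (hn i₀ hi₀.1).ne', zero_mul] at this
    exact zero_ne_one this
  · by_cases hxi : x i = 0
    · rw [hxi, mul_zero, map_zero]; exact zero_le_one
    · have h2 := hmin i (Finset.mem_filter.mpr ⟨hi, hxi⟩)
      calc v (θ i₀ ^ n i * x i) = v (θ i₀) ^ n i * v (x i) := by rw [map_mul, map_pow]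
        _ ≤ v (θ i) ^ n i * v (x i) :=
            mul_le_mul_of_nonneg_right (pow_le_pow_left₀ zero_le h2 _) zero_le
        _ = 1 := by rw [← map_pow, ← map_mul, hθ i hi hxi, map_one]
  · rw [hθ i₀ hi₀.1 hi₀.2, map_one]

/-- A homomorphism with integral values on generators has integral values. -/
theorem nw_le_one_of_generators {R : Type u} [CommRing R] [Algebra ℂ R]
    {L : Type v} [Field L] [Algebra ℂ L] {Γ : Type*} [LinearOrderedCommGroupWithZero Γ]
    (v : Valuation L Γ) (hc : ∀ c : ℂ, v (algebraMap ℂ L c) ≤ 1) {s : Set R}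
    (hs : Algebra.adjoin ℂ s = ⊤) (x : R →ₐ[ℂ] L) (hx : ∀ g ∈ s, v (x g) ≤ 1) (r : R) :
    v (x r) ≤ 1 := by
  have hr : r ∈ Algebra.adjoin ℂ s := by rw [hs]; trivial
  induction hr using Algebra.adjoin_induction with
  | mem g hg => exact hx g hg
  | algebraMap c => rw [AlgHom.commutes]; exact hc c
  | add a b _ _ ha hb => rw [map_add]; exact v.map_add_le ha hb
  | mul a b _ _ ha hb => rw [map_mul, map_mul]; exact mul_le_one' ha hb

/-- Twisting a homomorphism by the powers of an element. -/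
theorem nw_twist {B : Type v} [CommRing B] [Algebra ℂ B] (x : R →ₐ[ℂ] B) (θ : B) :
    ∃ x' : R →ₐ[ℂ] B, ∀ k, ∀ r ∈ 𝒜 k, x' r = θ ^ k * x r := by
  classical
  let F : ∀ k, (𝒜 k) →ₗ[ℂ] B := fun k =>
    (LinearMap.mulLeft ℂ (θ ^ k)) ∘ₗ x.toLinearMap ∘ₗ (𝒜 k).subtype
  have hF : ∀ k (r : 𝒜 k), F k r = θ ^ k * x (r : R) := fun k r => rfl
  let c₀ : (DirectSum ℕ fun k => 𝒜 k) →ₐ[ℂ] B := DirectSum.toAlgebra ℂ (fun k => 𝒜 k) F (by
      rw [hF]
      change θ ^ 0 * x (1 : R) = 1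
      rw [pow_zero, map_one, mul_one]) (by
      intro i j a b
      rw [hF, hF, hF]
      change θ ^ (i + j) * x ((a : R) * (b : R)) = _
      rw [map_mul, pow_add]; ring)
  refine ⟨c₀.comp (DirectSum.decomposeAlgEquiv 𝒜).toAlgHom, fun k r hr => ?_⟩
  have e2 : (DirectSum.decomposeAlgEquiv 𝒜) r = DirectSum.of (fun k => 𝒜 k) k ⟨r, hr⟩ := by
    rw [DirectSum.decomposeAlgEquiv_apply, DirectSum.decompose_of_mem 𝒜 hr]
  change c₀ ((DirectSum.decomposeAlgEquiv 𝒜) r) = _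
  rw [e2]
  change DirectSum.toModule ℂ ℕ B F (DirectSum.lof ℂ ℕ (fun k => 𝒜 k) k ⟨r, hr⟩) = _
  rw [DirectSum.toModule_lof]
  rfl

/-- A homomorphism to `κ[X]` which maps every `𝒜 k`, `k > 0`, to polynomials of degree `< k`
has constant values. -/
theorem nw_const (hX : IsContactFano 𝒜 P) {κ : Type v} [Field κ] [Algebra ℂ κ]
    (Ψ : R →ₐ[ℂ] κ[X]) (hΨ : ∀ k, 0 < k → ∀ r ∈ 𝒜 k, (Ψ r).natDegree < k) (r : R) :
    (Ψ r).natDegree = 0 := by
  classical
  have := hX.finiteType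
  obtain ⟨s, hs, hn⟩ := exists_generators 𝒜 hX.connected
  choose! n hn0 hn using hn
  have key : ∀ g ∈ s, (Ψ g).natDegree = 0 := by
    by_contra hcon
    push Not at hcon
    obtain ⟨g₁, hg₁, hg₁0⟩ := hcon
    obtain ⟨g₀, hg₀, hmax⟩ := Finset.exists_max_image s
      (fun g => ((Ψ g).natDegree : ℚ) / n g) ⟨g₁, hg₁⟩
    have hk0 : 0 < n g₀ := Nat.pos_of_ne_zero (hn0 g₀ hg₀)
    have hk0' : (0 : ℚ) < n g₀ := by exact_mod_cast hk0
    have hmax' : ∀ g ∈ s, (Ψ g).natDegree * n g₀ ≤ (Ψ g₀).natDegree * n g := by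
      intro g hg
      have h1 := hmax g hg
      have hkg : (0 : ℚ) < n g := by exact_mod_cast Nat.pos_of_ne_zero (hn0 g hg)
      rw [div_le_div_iff₀ hkg hk0'] at h1
      exact_mod_cast h1
    have hi0 : 0 < (Ψ g₀).natDegree := by
      have h1 := hmax' g₁ hg₁
      have h2 : 0 < (Ψ g₁).natDegree * n g₀ := Nat.mul_pos (Nat.pos_of_ne_zero hg₁0) hk0
      exact Nat.pos_of_mul_pos_right (a := (Ψ g₀).natDegree) (b := n g₁) (by omega)
    set k₀ := n g₀ with hk₀
    set i₀ := (Ψ g₀).natDegree with hi₀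
    have hlt : i₀ < k₀ := hΨ k₀ hk0 g₀ (hn g₀ hg₀)
    -- the twisted point
    let x₁ : R →ₐ[ℂ] RatFunc κ :=
      ((IsScalarTower.toAlgHom ℂ κ[X] (RatFunc κ)).comp
        ((Polynomial.expand κ k₀).restrictScalars ℂ)).comp Ψ
    have hx₁ : ∀ r, x₁ r = algebraMap κ[X] (RatFunc κ) (Polynomial.expand κ k₀ (Ψ r)) :=
      fun r => rfl
    obtain ⟨x, hx⟩ := nw_twist (𝒜 := 𝒜) x₁ ((RatFunc.X : RatFunc κ) ^ (-(i₀ : ℤ)))
    set w := RatFunc.inftyValuation κ with hw
    have hval : ∀ k, ∀ r ∈ 𝒜 k, Ψ r ≠ 0 →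
        w (x r) = exp (((k₀ * (Ψ r).natDegree : ℕ) : ℤ) - ((i₀ * k : ℕ) : ℤ)) := by
      intro k r hr hr0
      have h1 : Polynomial.expand κ k₀ (Ψ r) ≠ 0 := (Polynomial.expand_ne_zero hk0).mpr hr0
      rw [hx k r hr, map_mul, map_pow, RatFunc.inftyValuation.X_zpow, hx₁,
        RatFunc.inftyValuation_apply, RatFunc.inftyValuation.polynomial κ h1,
        Polynomial.natDegree_expand, ← exp_nsmul, ← exp_add]
      congr 1
      push_cast
      rw [nsmul_eq_mul]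
      ring
    have hle : ∀ r, w (x r) ≤ 1 := by
      refine nw_le_one_of_generators w (fun c => ?_) hs x (fun g hg => ?_)
      · have : algebraMap ℂ (RatFunc κ) c = RatFunc.C (algebraMap ℂ κ c) := by
          rw [IsScalarTower.algebraMap_apply ℂ κ (RatFunc κ)]
          rfl
        rw [this]
        by_cases hc : algebraMap ℂ κ c = 0
        · rw [hc, map_zero, map_zero]; exact zero_le_one
        · rw [RatFunc.inftyValuation.C κ hc]
      · by_cases hg0 : Ψ g = 0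
        · have : x g = 0 := by
            rw [hx (n g) g (hn g hg), hx₁, hg0, map_zero, map_zero, mul_zero]
          rw [this, map_zero]; exact zero_le_one
        · rw [hval (n g) g (hn g hg) hg0, ← exp_zero, exp_le_exp]
          have := hmax' g hg
          have h2 : k₀ * (Ψ g).natDegree ≤ i₀ * n g := by rw [mul_comm]; exact this
          omega
    have hΨg₀ : Ψ g₀ ≠ 0 := by
      intro h
      rw [h, natDegree_zero] at hi₀
      omega
    have hone : w (x g₀) = 1 := by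
      rw [hval k₀ g₀ (hn g₀ hg₀) hΨg₀, ← exp_zero]
      congr 1
      rw [mul_comm k₀]
      exact sub_self _
    obtain ⟨p, hp, hpg⟩ := exists_closed_of_valuation hX w x hle g₀ (by rw [hone]; exact lt_irrefl 1)
    have hv : ¬ IsVertex 𝒜 p := fun h => hpg (h k₀ hk0 g₀ (hn g₀ hg₀))
    have hG0 : 0 < Nat.gcd i₀ k₀ := Nat.gcd_pos_of_pos_right _ hk0
    have key : k₀ / Nat.gcd i₀ k₀ = 1 := by
      apply hX.lineBundle p hv
      intro k r hr hr0
      have h1 : w (x r) = 1 := by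
        by_contra hcon
        exact hr0 (hp r (lt_of_le_of_ne (hle r) hcon))
      have hr0' : Ψ r ≠ 0 := by
        intro h
        rw [hx k r hr, hx₁, h, map_zero, map_zero, mul_zero, map_zero] at h1
        exact zero_ne_one h1
      rw [hval k r hr hr0', ← exp_zero, exp_inj] at h1
      have h2 : k₀ * (Ψ r).natDegree = i₀ * k := by omega
      have h3 : k₀ / Nat.gcd i₀ k₀ ∣ (i₀ / Nat.gcd i₀ k₀) * k := by
        refine ⟨(Ψ r).natDegree, Nat.eq_of_mul_eq_mul_left hG0 ?_⟩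
        calc Nat.gcd i₀ k₀ * (i₀ / Nat.gcd i₀ k₀ * k)
            = (Nat.gcd i₀ k₀ * (i₀ / Nat.gcd i₀ k₀)) * k := by ring
          _ = i₀ * k := by rw [Nat.mul_div_cancel' (Nat.gcd_dvd_left _ _)]
          _ = k₀ * (Ψ r).natDegree := h2.symm
          _ = (Nat.gcd i₀ k₀ * (k₀ / Nat.gcd i₀ k₀)) * (Ψ r).natDegree := by
              rw [Nat.mul_div_cancel' (Nat.gcd_dvd_right _ _)]
          _ = _ := by ring
      exact (Nat.Coprime.symm (Nat.coprime_div_gcd_div_gcd hG0)).dvd_of_dvd_mul_left h3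
    have h4 : Nat.gcd i₀ k₀ = k₀ := by
      have := Nat.div_mul_cancel (Nat.gcd_dvd_right i₀ k₀)
      rw [key, one_mul] at this
      exact this
    have h5 : k₀ ∣ i₀ := by rw [← h4]; exact Nat.gcd_dvd_left _ _
    have h6 := Nat.le_of_dvd hi0 h5
    omega
  have hr : r ∈ Algebra.adjoin ℂ (s : Set R) := by rw [hs]; trivial
  induction hr using Algebra.adjoin_induction with
  | mem g hg => exact key g hg
  | algebraMap c =>
    rw [AlgHom.commutes, IsScalarTower.algebraMap_apply ℂ κ κ[X]]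
    exact natDegree_C _
  | add a b _ _ ha hb =>
    rw [map_add]
    have := natDegree_add_le (Ψ a) (Ψ b)
    rw [ha, hb] at this
    simpa using this
  | mul a b _ _ ha hb =>
    rw [map_mul]
    have := natDegree_mul_le (p := Ψ a) (q := Ψ b)
    rw [ha, hb] at this
    simpa using this

section Bounds

variable {L : Type v} [Field L] [Algebra ℂ L] {Γ : Type*} [LinearOrderedCommGroupWithZero Γ]
  (v : Valuation L Γ)

/-- Bounds of the coefficients follow from bounds on generators. -/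
theorem nw_bound (hv : ∀ c : ℂ, v (algebraMap ℂ L c) ≤ 1) (f : R →ₐ[ℂ] L[X]) (ρ : L) {s : Set R}
    (hs : Algebra.adjoin ℂ s = ⊤) (h : ∀ g ∈ s, ∀ i, v ((f g).coeff i * ρ ^ i) ≤ 1) (r : R)
    (i : ℕ) : v ((f r).coeff i * ρ ^ i) ≤ 1 := by
  have hr : r ∈ Algebra.adjoin ℂ s := by rw [hs]; trivial
  induction hr using Algebra.adjoin_induction generalizing i with
  | mem g hg => exact h g hg i
  | algebraMap c =>
    rw [AlgHom.commutes, IsScalarTower.algebraMap_apply ℂ L L[X], Polynomial.algebraMap_eq,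
      coeff_C]
    split_ifs with h0
    · rw [h0, pow_zero, mul_one]; exact hv c
    · rw [zero_mul, map_zero]; exact zero_le_one
  | add a b _ _ ha hb =>
    rw [map_add, coeff_add, add_mul]
    exact v.map_add_le (ha i) (hb i)
  | mul a b _ _ ha hb =>
    rw [map_mul f, coeff_mul, Finset.sum_mul]
    refine v.map_sum_le fun x hx => ?_
    rw [Finset.HasAntidiagonal.mem_antidiagonal] at hx
    have e1 : (f a).coeff x.1 * (f b).coeff x.2 * ρ ^ i
        = ((f a).coeff x.1 * ρ ^ x.1) * ((f b).coeff x.2 * ρ ^ x.2) := by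
      rw [← hx, pow_add]; ring
    rw [e1, map_mul]
    exact mul_le_one' (ha _) (hb _)

/-- Reduction of a homomorphism with integral coefficients. -/
theorem nw_reduce (hv : ∀ c : ℂ, v (algebraMap ℂ L c) ≤ 1) (f : R →ₐ[ℂ] L[X]) (ρ : L)
    (h : ∀ r i, v ((f r).coeff i * ρ ^ i) ≤ 1) :
    ∃ (κ : Type v) (_ : Field κ) (_ : Algebra ℂ κ) (Ψ : R →ₐ[ℂ] κ[X]),
      ∀ r i, (Ψ r).coeff i = 0 ↔ v ((f r).coeff i * ρ ^ i) < 1 := by
  classical
  let O := v.valuationSubring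
  let ι : O →+* L := O.subtype
  have hι : Function.Injective ι := Subtype.val_injective
  -- the rescaled map
  let f₁ : R →+* L[X] := (Polynomial.compRingHom (C ρ * X)).comp f.toRingHom
  have hf₁ : ∀ r i, (f₁ r).coeff i = (f r).coeff i * ρ ^ i := by
    intro r i
    change ((f r).comp (C ρ * X)).coeff i = _
    rw [comp_C_mul_X_coeff]
  have hmem : ∀ r, f₁ r ∈ (mapRingHom ι).range := by
    intro r
    rw [Polynomial.mem_map_range]
    intro i
    rw [hf₁]
    exact ⟨⟨(f r).coeff i * ρ ^ i, (Valuation.mem_valuationSubring_iff v _).mpr (h r i)⟩, rfl⟩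
  let e : O[X] ≃+* (mapRingHom ι).range := RingEquiv.ofBijective (mapRingHom ι).rangeRestrict
    ⟨by
      intro a b hab
      have h1 : mapRingHom ι a = mapRingHom ι b := congrArg Subtype.val hab
      exact Polynomial.map_injective ι hι h1, RingHom.rangeRestrict_surjective _⟩
  let F : R →+* O[X] := (e.symm : (mapRingHom ι).range →+* O[X]).comp
    (f₁.codRestrict (mapRingHom ι).range hmem)
  have hF : ∀ r, mapRingHom ι (F r) = f₁ r := by
    intro r
    have h1 : e (F r) = ⟨f₁ r, hmem r⟩ := e.apply_symm_apply _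
    exact congrArg Subtype.val h1
  have hFc : ∀ r i, (((F r).coeff i : O) : L) = (f r).coeff i * ρ ^ i := by
    intro r i
    rw [← hf₁, ← hF]
    change _ = ((F r).map ι).coeff i
    rw [coeff_map]
    rfl
  let cO : ℂ →+* O := (algebraMap ℂ L).codRestrict O.toSubring (fun c =>
    (Valuation.mem_valuationSubring_iff v _).mpr (hv c))
  let κ := IsLocalRing.ResidueField O
  let q : O →+* κ := IsLocalRing.residue O
  let iκ : Algebra ℂ κ := (q.comp cO).toAlgebra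
  let Ψ₀ : R →+* κ[X] := (mapRingHom q).comp F
  have hΨc : ∀ r i, (Ψ₀ r).coeff i = q ((F r).coeff i) := by
    intro r i
    change ((F r).map q).coeff i = _
    rw [coeff_map]
  refine ⟨κ, inferInstance, iκ, { Ψ₀ with commutes' := fun c => ?_ }, fun r i => ?_⟩
  · change Ψ₀ (algebraMap ℂ R c) = _
    have h1 : F (algebraMap ℂ R c) = C (cO c) := by
      apply Polynomial.map_injective ι hι
      change mapRingHom ι (F _) = _
      rw [hF, map_C]
      change (f (algebraMap ℂ R c)).comp (C ρ * X) = _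
      rw [AlgHom.commutes, IsScalarTower.algebraMap_apply ℂ L L[X], Polynomial.algebraMap_eq,
        C_comp]
      rfl
    change (F (algebraMap ℂ R c)).map q = _
    rw [h1, map_C, IsScalarTower.algebraMap_apply ℂ κ κ[X]]
    rfl
  · change (Ψ₀ r).coeff i = 0 ↔ _
    rw [hΨc, ← hFc]
    change IsLocalRing.residue O _ = 0 ↔ _
    rw [IsLocalRing.residue_eq_zero_iff]
    exact Valuation.mem_maximalIdeal_iff _ _

/-- If the extremal slope is attained before the middle, it is attained at the middle. -/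
theorem nw_half (hX : IsContactFano 𝒜 P) (hv : ∀ c : ℂ, v (algebraMap ℂ L c) ≤ 1)
    (f : R →ₐ[ℂ] L[X]) (ρ : L) (h : ∀ r i, v ((f r).coeff i * ρ ^ i) ≤ 1)
    (h2 : ∀ k, ∀ r ∈ 𝒜 k, ∀ i, k < i → v ((f r).coeff i * ρ ^ i) < 1)
    (h3 : ∃ g, ∃ i, 0 < i ∧ v ((f g).coeff i * ρ ^ i) = 1) :
    ∃ k, 0 < k ∧ ∃ r ∈ 𝒜 k, v ((f r).coeff k * ρ ^ k) = 1 := by
  obtain ⟨κ, _, _, Ψ, hΨ⟩ := nw_reduce v hv f ρ h
  by_contra hcon
  push Not at hcon
  have hdeg : ∀ k, 0 < k → ∀ r ∈ 𝒜 k, (Ψ r).natDegree < k := by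
    intro k hk r hr
    by_contra hnot
    rw [not_lt] at hnot
    have hne : Ψ r ≠ 0 := by
      intro h0
      rw [h0, natDegree_zero] at hnot
      omega
    have hlead : (Ψ r).coeff (Ψ r).natDegree ≠ 0 := by
      rw [coeff_natDegree, leadingCoeff_ne_zero]; exact hne
    rcases hnot.lt_or_eq with hlt | heq
    · exact hlead ((hΨ r _).mpr (h2 k r hr _ hlt))
    · rw [← heq] at hlead
      exact hlead ((hΨ r _).mpr (lt_of_le_of_ne (h r k) (hcon k hk r hr)))
  obtain ⟨g, i, hi, hg⟩ := h3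
  have h4 := nw_const hX Ψ hdeg g
  have h5 : (Ψ g).coeff i = 0 := coeff_eq_zero_of_natDegree_lt (by omega)
  rw [hΨ, hg] at h5
  exact lt_irrefl _ h5

/-- The Newton slope of a conic over a valued field, for a pair of dehomogenised maps. -/
theorem nw_main [IsAlgClosed L] (hX : IsContactFano 𝒜 P)
    (hv : ∀ c : ℂ, v (algebraMap ℂ L c) ≤ 1)
    (f g : R →ₐ[ℂ] L[X]) (hf : ∀ k, ∀ r ∈ 𝒜 k, (f r).natDegree ≤ 2 * k)
    (hg : ∀ k, ∀ r ∈ 𝒜 k, (g r).natDegree ≤ 2 * k)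
    (hfg : ∀ k, ∀ r ∈ 𝒜 k, ∀ i j, i + j = 2 * k → (f r).coeff i = (g r).coeff j)
    (h0 : ∀ k, ∀ r ∈ 𝒜 k, v ((f r).coeff 0) ≤ 1) (h0' : ∀ k, ∀ r ∈ 𝒜 k, v ((g r).coeff 0) ≤ 1) :
    ∃ ρ : L, ρ ≠ 0 ∧ v ρ ≤ 1 ∧ (∀ r i, v ((f r).coeff i * ρ ^ i) ≤ 1) ∧
      (∀ r i, v ((g r).coeff i * ρ ^ i) ≤ 1) ∧
      (v ρ = 1 ∨ ∃ k, 0 < k ∧ ∃ r ∈ 𝒜 k, v ((f r).coeff k * ρ ^ k) = 1) := by
  classical
  have := hX.finiteType
  obtain ⟨s, hs, hn⟩ := exists_generators 𝒜 hX.connected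
  choose! n hn0 hn using hn
  -- the general bound
  have gen : ∀ (f g : R →ₐ[ℂ] L[X]), (∀ k, ∀ r ∈ 𝒜 k, (f r).natDegree ≤ 2 * k) →
      (∀ k, ∀ r ∈ 𝒜 k, ∀ i j, i + j = 2 * k → (f r).coeff i = (g r).coeff j) →
      (∀ k, ∀ r ∈ 𝒜 k, v ((f r).coeff 0) ≤ 1) → (∀ k, ∀ r ∈ 𝒜 k, v ((g r).coeff 0) ≤ 1) →
      ∀ ρ : L, v ρ ≤ 1 → (∀ r ∈ s, ∀ i, 0 < i → i < 2 * n r →
        v (ρ ^ (min i (2 * n r - i)) * (f r).coeff i) ≤ 1) →
      ∀ r i, v ((f r).coeff i * ρ ^ i) ≤ 1 := by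
    intro f g hf hfg h0 h0' ρ hρ hb r i
    refine nw_bound v hv f ρ hs (fun t ht i => ?_) r i
    rcases Nat.eq_zero_or_pos i with rfl | hi
    · rw [pow_zero, mul_one]; exact h0 _ t (hn t ht)
    rcases lt_trichotomy i (2 * n t) with hlt | heq | hgt
    · have h1 := hb t ht i hi hlt
      have e1 : (f t).coeff i * ρ ^ i
          = (ρ ^ (min i (2 * n t - i)) * (f t).coeff i) * ρ ^ (i - min i (2 * n t - i)) := by
        have e2 : ρ ^ i = ρ ^ (min i (2 * n t - i)) * ρ ^ (i - min i (2 * n t - i)) := by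
          rw [← pow_add, Nat.add_sub_cancel' (min_le_left _ _)]
        rw [e2]; ring
      rw [e1, map_mul, map_pow v ρ (i - _)]
      exact mul_le_one' h1 (pow_le_one' hρ _)
    · rw [hfg (n t) t (hn t ht) i 0 (by omega), map_mul, map_pow]
      exact mul_le_one' (h0' _ t (hn t ht)) (pow_le_one' hρ _)
    · rw [coeff_eq_zero_of_natDegree_lt (by have := hf (n t) t (hn t ht); omega), zero_mul,
        map_zero]
      exact zero_le_one
  let I : Finset (Σ _ : R, ℕ) := s.sigma (fun g => Finset.Ioo 0 (2 * n g))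
  have hI : ∀ p : (Σ _ : R, ℕ), p ∈ I ↔ p.1 ∈ s ∧ 0 < p.2 ∧ p.2 < 2 * n p.1 := by
    intro p
    rw [Finset.mem_sigma, Finset.mem_Ioo]
  by_cases hall : ∀ p ∈ I, v ((f p.1).coeff p.2) ≤ 1
  · have hone : v (1 : L) ≤ 1 := by rw [map_one]
    refine ⟨1, one_ne_zero, hone, ?_, ?_, Or.inl (map_one v)⟩
    · refine gen f g hf hfg h0 h0' 1 hone fun r hr i hi hi2 => ?_
      rw [one_pow, one_mul]
      exact hall ⟨r, i⟩ ((hI _).mpr ⟨hr, hi, hi2⟩)
    · refine gen g f hg (fun k r hr i j hij => (hfg k r hr j i (by omega)).symm) h0' h0 1 hone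
        fun r hr i hi hi2 => ?_
      rw [one_pow, one_mul, ← hfg (n r) r (hn r hr) (2 * n r - i) i (by omega)]
      exact hall ⟨r, 2 * n r - i⟩ ((hI _).mpr ⟨hr, by change 0 < 2 * n r - i; omega,
        by change 2 * n r - i < 2 * n r; omega⟩)
  · push Not at hall
    obtain ⟨p₁, hp₁, hvp₁⟩ := hall
    obtain ⟨ρ, hρ0, hρ1, p₂, hp₂, hρ2⟩ := nw_scale v I (fun p => (f p.1).coeff p.2)
      (fun p => min p.2 (2 * n p.1 - p.2)) (fun p hp => by
        have := (hI p).mp hp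
        exact lt_min this.2.1 (by omega)) ⟨p₁, hp₁, fun h => by
          rw [h, map_zero] at hvp₁
          exact absurd hvp₁ (not_lt.mpr zero_le_one)⟩
    have hm₁ : 0 < min p₁.2 (2 * n p₁.1 - p₁.2) := by
      have := (hI p₁).mp hp₁
      exact lt_min this.2.1 (by omega)
    have hρlt : v ρ < 1 := by
      by_contra hcon
      rw [not_lt] at hcon
      have h1 := hρ1 p₁ hp₁
      rw [map_mul, map_pow] at h1
      have h2 : (1 : Γ) ≤ v ρ ^ (min p₁.2 (2 * n p₁.1 - p₁.2)) := one_le_pow₀ hcon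
      have h3 : (1 : Γ) < v ρ ^ (min p₁.2 (2 * n p₁.1 - p₁.2)) * v ((f p₁.1).coeff p₁.2) :=
        lt_of_lt_of_le hvp₁ (le_mul_of_one_le_left' h2)
      exact absurd h1 (not_le.mpr h3)
    have hF := gen f g hf hfg h0 h0' ρ hρlt.le fun r hr i hi hi2 =>
      hρ1 ⟨r, i⟩ ((hI _).mpr ⟨hr, hi, hi2⟩)
    have hG := gen g f hg (fun k r hr i j hij => (hfg k r hr j i (by omega)).symm) h0' h0 ρ
      hρlt.le fun r hr i hi hi2 => by
        have h1 := hρ1 ⟨r, 2 * n r - i⟩ ((hI _).mpr ⟨hr, by change 0 < 2 * n r - i; omega,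
          by change 2 * n r - i < 2 * n r; omega⟩)
        change v (ρ ^ (min (2 * n r - i) (2 * n r - (2 * n r - i))) * (f r).coeff (2 * n r - i))
          ≤ 1 at h1
        rw [hfg (n r) r (hn r hr) (2 * n r - i) i (by omega),
          show 2 * n r - (2 * n r - i) = i by omega, min_comm] at h1
        exact h1
    -- after the middle the coefficients are small
    have small : ∀ (f g : R →ₐ[ℂ] L[X]), (∀ k, ∀ r ∈ 𝒜 k, (f r).natDegree ≤ 2 * k) →
        (∀ k, ∀ r ∈ 𝒜 k, ∀ i j, i + j = 2 * k → (f r).coeff i = (g r).coeff j) →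
        (∀ r i, v ((g r).coeff i * ρ ^ i) ≤ 1) →
        ∀ k, ∀ r ∈ 𝒜 k, ∀ i, k < i → v ((f r).coeff i * ρ ^ i) < 1 := by
      intro f g hf hfg hG k r hr i hki
      rcases Nat.lt_or_ge (2 * k) i with h | h
      · rw [coeff_eq_zero_of_natDegree_lt (by have := hf k r hr; omega), zero_mul, map_zero]
        exact zero_lt_one
      · have h1 := hG r (2 * k - i)
        rw [← hfg k r hr i (2 * k - i) (by omega)] at h1
        have e1 : (f r).coeff i * ρ ^ i
            = ((f r).coeff i * ρ ^ (2 * k - i)) * ρ ^ (2 * i - 2 * k) := by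
          have e2 : ρ ^ i = ρ ^ (2 * k - i) * ρ ^ (2 * i - 2 * k) := by
            rw [← pow_add]; congr 1; omega
          rw [e2]; ring
        rw [e1, map_mul, map_pow v ρ (2 * i - 2 * k)]
        exact mul_lt_one_of_nonneg_of_lt_one_right h1 zero_le
          (pow_lt_one₀ zero_le hρlt (by omega))
    obtain ⟨hp2s, hp2a, hp2b⟩ := (hI p₂).mp hp₂
    refine ⟨ρ, hρ0, hρlt.le, hF, hG, Or.inr ?_⟩
    rcases Nat.le_total p₂.2 (n p₂.1) with hle | hle
    · refine nw_half v hX hv f ρ hF (small f g hf hfg hG) ⟨p₂.1, p₂.2, hp2a, ?_⟩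
      rw [show min p₂.2 (2 * n p₂.1 - p₂.2) = p₂.2 by omega, mul_comm] at hρ2
      exact hρ2
    · obtain ⟨k, hk, r, hr, h5⟩ := nw_half v hX hv g ρ hG
        (small g f hg (fun k r hr i j hij => (hfg k r hr j i (by omega)).symm) hF)
        ⟨p₂.1, 2 * n p₂.1 - p₂.2, by omega, by
          rw [show min p₂.2 (2 * n p₂.1 - p₂.2) = 2 * n p₂.1 - p₂.2 by omega, mul_comm,
            hfg (n p₂.1) p₂.1 (hn _ hp2s) p₂.2 (2 * n p₂.1 - p₂.2) (by omega)] at hρ2
          exact hρ2⟩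
      refine ⟨k, hk, r, hr, ?_⟩
      rw [hfg k r hr k k (by omega)]
      exact h5

end Bounds

section Mv

variable {L : Type v} [Field L] [Algebra ℂ L]

/-- Dehomogenisation `s = 1`, `t = X` (`i = 0`) or `s = X`, `t = 1` (`i = 1`). -/
noncomputable def nwDehom (L : Type v) [Field L] [Algebra ℂ L] (a : Fin 2) :
    MvPolynomial (Fin 2) L →ₐ[ℂ] L[X] :=
  (MvPolynomial.aeval (fun j : Fin 2 => if j = a then (1 : L[X]) else X)).restrictScalars ℂ

theorem nwDehom_apply (a b : Fin 2) (hab : a ≠ b) (p : MvPolynomial (Fin 2) L) :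
    nwDehom L a p = ∑ d ∈ p.support, C (p.coeff d) * X ^ (d b) := by
  change MvPolynomial.aeval _ p = _
  rw [MvPolynomial.aeval_def, MvPolynomial.eval₂_eq']
  refine Finset.sum_congr rfl fun d _ => ?_
  rw [Polynomial.algebraMap_eq]
  congr 1
  fin_cases a <;> fin_cases b <;> simp_all [Fin.prod_univ_two]

theorem nw_fin_two_ext {a b : Fin 2} (hab : a ≠ b) {d m : Fin 2 →₀ ℕ} {N : ℕ}
    (hd : d 0 + d 1 = N) (hm : m 0 + m 1 = N) (h : d b = m b) : d = m := by
  ext j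
  fin_cases a <;> fin_cases b <;> fin_cases j <;> simp_all <;> omega

theorem nwDehom_coeff (a b : Fin 2) (hab : a ≠ b) {p : MvPolynomial (Fin 2) L} {N : ℕ}
    (hp : p.IsHomogeneous N) {m : Fin 2 →₀ ℕ} (hm : m 0 + m 1 = N) :
    (nwDehom L a p).coeff (m b) = p.coeff m := by
  classical
  rw [nwDehom_apply a b hab, finsetSum_coeff]
  have h1 : ∀ d ∈ p.support, (C (p.coeff d) * X ^ (d b)).coeff (m b)
      = if d = m then p.coeff m else 0 := by
    intro d hd
    have hdeg : d 0 + d 1 = N := by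
      have h2 := hp (MvPolynomial.mem_support_iff.mp hd)
      rw [← h2, Finsupp.weight_apply, Finsupp.sum_fintype _ _ (by simp), Fin.sum_univ_two]
      simp
    rw [coeff_C_mul_X_pow]
    by_cases hdm : d = m
    · rw [if_pos hdm, hdm, if_pos rfl]
    · rw [if_neg hdm, if_neg]
      intro h
      exact hdm (nw_fin_two_ext hab hdeg hm h.symm)
  rw [Finset.sum_congr rfl h1, Finset.sum_ite_eq']
  split_ifs with h
  · rfl
  · rw [MvPolynomial.notMem_support_iff.mp h]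

theorem nwDehom_natDegree_le (a b : Fin 2) (hab : a ≠ b) {p : MvPolynomial (Fin 2) L} {N : ℕ}
    (hp : p.IsHomogeneous N) : (nwDehom L a p).natDegree ≤ N := by
  classical
  rw [nwDehom_apply a b hab]
  refine natDegree_sum_le_of_forall_le _ _ fun d hd => ?_
  refine (natDegree_C_mul_X_pow_le _ _).trans ?_
  have h2 := hp (MvPolynomial.mem_support_iff.mp hd)
  rw [← h2, Finsupp.weight_apply, Finsupp.sum_fintype _ _ (by simp), Fin.sum_univ_two]
  fin_cases b <;> simp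

/-- **The Newton slope of a conic over a valued field.** -/
theorem nw_conic [IsAlgClosed L] (hX : IsContactFano 𝒜 P) {Γ : Type*}
    [LinearOrderedCommGroupWithZero Γ] (v : Valuation L Γ)
    (hv : ∀ c : ℂ, v (algebraMap ℂ L c) ≤ 1) (φ : R →ₐ[ℂ] MvPolynomial (Fin 2) L)
    (hφ : ∀ k, ∀ r ∈ 𝒜 k, (φ r).IsHomogeneous (2 * k))
    (h0 : ∀ k, ∀ r ∈ 𝒜 k, v ((φ r).coeff (Finsupp.single 0 (2 * k))) ≤ 1)
    (h1 : ∀ k, ∀ r ∈ 𝒜 k, v ((φ r).coeff (Finsupp.single 1 (2 * k))) ≤ 1) :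
    ∃ ρ : L, ρ ≠ 0 ∧ v ρ ≤ 1 ∧
      (∀ k, ∀ r ∈ 𝒜 k, ∀ m, v ((φ r).coeff m * ρ ^ (m 0)) ≤ 1) ∧
      (∀ k, ∀ r ∈ 𝒜 k, ∀ m, v ((φ r).coeff m * ρ ^ (m 1)) ≤ 1) ∧
      (v ρ = 1 ∨ ∃ k, 0 < k ∧ ∃ r ∈ 𝒜 k,
        v ((φ r).coeff (Finsupp.single 0 k + Finsupp.single 1 k) * ρ ^ k) = 1) := by
  have h01 : (0 : Fin 2) ≠ 1 := by decide
  obtain ⟨ρ, hρ0, hρ1, hF, hG, hM⟩ := nw_main v hX hv ((nwDehom L 0).comp φ)
    ((nwDehom L 1).comp φ)
    (fun k r hr => nwDehom_natDegree_le 0 1 h01 (hφ k r hr))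
    (fun k r hr => nwDehom_natDegree_le 1 0 h01.symm (hφ k r hr))
    (fun k r hr i j hij => by
      have e1 := nwDehom_coeff 0 1 h01 (hφ k r hr)
        (m := Finsupp.single 0 j + Finsupp.single 1 i) (by simp; omega)
      have e2 := nwDehom_coeff 1 0 h01.symm (hφ k r hr)
        (m := Finsupp.single 0 j + Finsupp.single 1 i) (by simp; omega)
      simp only [Finsupp.coe_add, Pi.add_apply, Finsupp.single_eq_same, ne_eq, h01,
        not_false_eq_true, Finsupp.single_eq_of_ne, zero_add, h01.symm, add_zero] at e1 e2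
      change (nwDehom L 0 (φ r)).coeff i = (nwDehom L 1 (φ r)).coeff j
      rw [e1, e2])
    (fun k r hr => by
      have e1 := nwDehom_coeff 0 1 h01 (hφ k r hr) (m := Finsupp.single 0 (2 * k)) (by simp)
      simp only [ne_eq, h01, not_false_eq_true, Finsupp.single_eq_of_ne, h01.symm] at e1
      change v ((nwDehom L 0 (φ r)).coeff 0) ≤ 1
      rw [e1]
      exact h0 k r hr)
    (fun k r hr => by
      have e1 := nwDehom_coeff 1 0 h01.symm (hφ k r hr) (m := Finsupp.single 1 (2 * k)) (by simp)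
      simp only [ne_eq, h01, not_false_eq_true, Finsupp.single_eq_of_ne, h01.symm] at e1
      change v ((nwDehom L 1 (φ r)).coeff 0) ≤ 1
      rw [e1]
      exact h1 k r hr)
  have hzero : ∀ k, ∀ r ∈ 𝒜 k, ∀ m : Fin 2 →₀ ℕ, m 0 + m 1 ≠ 2 * k → (φ r).coeff m = 0 := by
    intro k r hr m hm
    by_contra hne
    apply hm
    have h2 := hφ k r hr hne
    rw [← h2, Finsupp.weight_apply, Finsupp.sum_fintype _ _ (by simp), Fin.sum_univ_two]
    simp
  refine ⟨ρ, hρ0, hρ1, fun k r hr m => ?_, fun k r hr m => ?_, ?_⟩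
  · by_cases hm : m 0 + m 1 = 2 * k
    · have := hG r (m 0)
      rwa [AlgHom.comp_apply, nwDehom_coeff 1 0 h01.symm (hφ k r hr) hm] at this
    · rw [hzero k r hr m hm, zero_mul, map_zero]; exact zero_le_one
  · by_cases hm : m 0 + m 1 = 2 * k
    · have := hF r (m 1)
      rwa [AlgHom.comp_apply, nwDehom_coeff 0 1 h01 (hφ k r hr) hm] at this
    · rw [hzero k r hr m hm, zero_mul, map_zero]; exact zero_le_one
  · rcases hM with hM | ⟨k, hk, r, hr, h⟩
    · exact Or.inl hM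
    · refine Or.inr ⟨k, hk, r, hr, ?_⟩
      have e1 := nwDehom_coeff 0 1 h01 (hφ k r hr)
        (m := Finsupp.single 0 k + Finsupp.single 1 k) (by simp; omega)
      simp only [Finsupp.coe_add, Pi.add_apply, Finsupp.single_eq_same, ne_eq, h01,
        not_false_eq_true, Finsupp.single_eq_of_ne, zero_add, h01.symm, add_zero] at e1
      rw [← e1]
      exact h

end Mv

end Vale.Agent.P292
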