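import Vale.Agent.P292.Q.Newton

/-! # Degenerations of conics over a valued field: chains of two lines. -/

set_option linter.all false

namespace Vale.Agent.P292

open Polynomial

universe u v w

/-- A place of `L` with values in `κ`: the residue map of the valuation `v` (only its values on
the valuation ring matter). -/
structure IsPlace {L : Type v} [Field L] [Algebra ℂ L] {κ : Type w} [Field κ] [Algebra ℂ κ]
    {Γ : Type*} [LinearOrderedCommGroupWithZero Γ] (v : Valuation L Γ) (res : L → κ) :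
    Prop where
  le_one : ∀ c : ℂ, v (algebraMap ℂ L c) ≤ 1
  map_add : ∀ x y, v x ≤ 1 → v y ≤ 1 → res (x + y) = res x + res y
  map_mul : ∀ x y, v x ≤ 1 → v y ≤ 1 → res (x * y) = res x * res y
  eq_zero_iff : ∀ x, v x ≤ 1 → (res x = 0 ↔ v x < 1)
  map_algebraMap : ∀ c : ℂ, res (algebraMap ℂ L c) = algebraMap ℂ κ c

/-- Every valuation which is at most one on `ℂ` has a place. -/
theorem exists_isPlace {L : Type v} [Field L] [Algebra ℂ L]
    {Γ : Type*} [LinearOrderedCommGroupWithZero Γ] (v : Valuation L Γ)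
    (hv : ∀ c : ℂ, v (algebraMap ℂ L c) ≤ 1) :
    ∃ (κ : Type v) (_ : Field κ) (_ : Algebra ℂ κ) (res : L → κ), IsPlace v res ∧
      ∀ y, ∃ x, v x ≤ 1 ∧ res x = y := by
  classical
  let O := v.valuationSubring
  let cO : ℂ →+* O := (algebraMap ℂ L).codRestrict O.toSubring (fun c =>
    (Valuation.mem_valuationSubring_iff v _).mpr (hv c))
  let κ := IsLocalRing.ResidueField O
  let q : O →+* κ := IsLocalRing.residue O
  let iκ : Algebra ℂ κ := (q.comp cO).toAlgebra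
  have hmem : ∀ x, x ∈ O ↔ v x ≤ 1 := fun x => Valuation.mem_valuationSubring_iff v x
  let res : L → κ := fun x => if h : x ∈ O then q ⟨x, h⟩ else 0
  have hres : ∀ x (h : x ∈ O), res x = q ⟨x, h⟩ := fun x h => dif_pos h
  refine ⟨κ, inferInstance, iκ, res, ⟨hv, fun x y hx hy => ?_, fun x y hx hy => ?_,
    fun x hx => ?_, fun c => ?_⟩, fun y => ?_⟩
  · rw [hres x ((hmem x).mpr hx), hres y ((hmem y).mpr hy),
      hres _ ((hmem _).mpr (v.map_add_le hx hy)), ← map_add]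
    rfl
  · have hxy : v (x * y) ≤ 1 := by rw [map_mul]; exact mul_le_one' hx hy
    rw [hres x ((hmem x).mpr hx), hres y ((hmem y).mpr hy), hres _ ((hmem _).mpr hxy),
      ← q.map_mul]
    rfl
  · rw [hres x ((hmem x).mpr hx)]
    change IsLocalRing.residue O _ = 0 ↔ _
    rw [IsLocalRing.residue_eq_zero_iff]
    exact Valuation.mem_maximalIdeal_iff _ _
  · rw [hres _ ((hmem _).mpr (hv c))]
    rfl
  · obtain ⟨x, hx⟩ := IsLocalRing.residue_surjective (R := O) y
    exact ⟨x, (hmem _).mp x.2, by rw [hres _ x.2]; exact hx⟩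

namespace IsPlace

variable {L : Type v} [Field L] [Algebra ℂ L] {κ : Type w} [Field κ] [Algebra ℂ κ]
    {Γ : Type*} [LinearOrderedCommGroupWithZero Γ] {v : Valuation L Γ} {res : L → κ}
    (hp : IsPlace v res)
include hp

theorem map_zero : res 0 = 0 := (hp.eq_zero_iff 0 (by simp)).mpr (by simp)

theorem map_one : res 1 = 1 := by
  have := hp.map_algebraMap 1
  rwa [_root_.map_one, _root_.map_one] at this

theorem map_sum {ι : Type*} (s : Finset ι) (f : ι → L) (hf : ∀ i ∈ s, v (f i) ≤ 1) :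
    res (∑ i ∈ s, f i) = ∑ i ∈ s, res (f i) := by
  classical
  induction s using Finset.induction_on with
  | empty => rw [Finset.sum_empty, Finset.sum_empty, hp.map_zero]
  | insert a s ha ih =>
    rw [Finset.sum_insert ha, Finset.sum_insert ha, hp.map_add, ih]
    · exact fun i hi => hf i (Finset.mem_insert_of_mem hi)
    · exact hf a (Finset.mem_insert_self a s)
    · exact v.map_sum_le fun i hi => hf i (Finset.mem_insert_of_mem hi)

theorem map_pow (x : L) (hx : v x ≤ 1) (n : ℕ) : res (x ^ n) = res x ^ n := by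
  induction n with
  | zero => rw [pow_zero, pow_zero, hp.map_one]
  | succ n ih =>
    rw [pow_succ, pow_succ, hp.map_mul _ _ (by rw [_root_.map_pow]; exact pow_le_one' hx n) hx,
      ih]

theorem map_neg (x : L) (hx : v x ≤ 1) : res (-x) = - res x := by
  have h1 := hp.map_add x (-x) hx (by rwa [Valuation.map_neg])
  rw [add_neg_cancel, hp.map_zero] at h1
  exact (neg_eq_of_add_eq_zero_right h1.symm).symm

variable {R : Type u} [CommRing R] [Algebra ℂ R]

/-- Reduction of a homomorphism with integral (rescaled) coefficients. -/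
theorem reduce (f : R →ₐ[ℂ] L[X]) (ρ : L)
    (h : ∀ r i, v ((f r).coeff i * ρ ^ i) ≤ 1) :
    ∃ Ψ : R →ₐ[ℂ] κ[X], ∀ r i, (Ψ r).coeff i = res ((f r).coeff i * ρ ^ i) := by
  classical
  let O := v.valuationSubring
  let ι : O →+* L := O.subtype
  have hι : Function.Injective ι := Subtype.val_injective
  have hmemO : ∀ x, x ∈ O ↔ v x ≤ 1 := fun x => Valuation.mem_valuationSubring_iff v x
  let f₁ : R →+* L[X] := (Polynomial.compRingHom (C ρ * X)).comp f.toRingHom
  have hf₁ : ∀ r i, (f₁ r).coeff i = (f r).coeff i * ρ ^ i := by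
    intro r i
    change ((f r).comp (C ρ * X)).coeff i = _
    rw [comp_C_mul_X_coeff]
  have hmem : ∀ r, f₁ r ∈ (mapRingHom ι).range := by
    intro r
    rw [Polynomial.mem_map_range]
    intro i
    rw [hf₁]
    exact ⟨⟨(f r).coeff i * ρ ^ i, (hmemO _).mpr (h r i)⟩, rfl⟩
  let e : O[X] ≃+* (mapRingHom ι).range := RingEquiv.ofBijective (mapRingHom ι).rangeRestrict
    ⟨by
      intro a b hab
      have h1 : mapRingHom ι a = mapRingHom ι b := congrArg Subtype.val hab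
      exact Polynomial.map_injective ι hι h1, RingHom.rangeRestrict_surjective _⟩
  let F : R →+* O[X] := (e.symm : (mapRingHom ι).range →+* O[X]).comp
    (f₁.codRestrict (mapRingHom ι).range hmem)
  have hF : ∀ r, mapRingHom ι (F r) = f₁ r := by
    intro r
    have h1 : e (F r) = ⟨f₁ r, hmem r⟩ := e.apply_symm_apply _
    exact congrArg Subtype.val h1
  have hFc : ∀ r i, (((F r).coeff i : O) : L) = (f r).coeff i * ρ ^ i := by
    intro r i
    rw [← hf₁, ← hF]
    change _ = ((F r).map ι).coeff i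
    rw [coeff_map]
    rfl
  let cO : ℂ →+* O := (algebraMap ℂ L).codRestrict O.toSubring (fun c =>
    (Valuation.mem_valuationSubring_iff v _).mpr (hp.le_one c))
  let q : O →+* κ :=
    { toFun := fun x => res (x : L)
      map_zero' := hp.map_zero
      map_one' := hp.map_one
      map_add' := fun x y => hp.map_add _ _ ((hmemO _).mp x.2) ((hmemO _).mp y.2)
      map_mul' := fun x y => hp.map_mul _ _ ((hmemO _).mp x.2) ((hmemO _).mp y.2) }
  let Ψ₀ : R →+* κ[X] := (mapRingHom q).comp F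
  have hΨc : ∀ r i, (Ψ₀ r).coeff i = q ((F r).coeff i) := by
    intro r i
    change ((F r).map q).coeff i = _
    rw [coeff_map]
  refine ⟨{ Ψ₀ with commutes' := fun c => ?_ }, fun r i => ?_⟩
  · change Ψ₀ (algebraMap ℂ R c) = _
    have h1 : F (algebraMap ℂ R c) = C (cO c) := by
      apply Polynomial.map_injective ι hι
      change mapRingHom ι (F _) = _
      rw [hF, map_C]
      change (f (algebraMap ℂ R c)).comp (C ρ * X) = _
      rw [AlgHom.commutes, IsScalarTower.algebraMap_apply ℂ L L[X], Polynomial.algebraMap_eq,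
        C_comp]
      rfl
    change (F (algebraMap ℂ R c)).map q = _
    rw [h1, map_C, IsScalarTower.algebraMap_apply ℂ κ κ[X]]
    congr 1
    exact hp.map_algebraMap c
  · change (Ψ₀ r).coeff i = _
    rw [hΨc, ← hFc]
    rfl

end IsPlace

section Homogenize

variable {R : Type u} [CommRing R] [Algebra ℂ R] {𝒜 : ℕ → Submodule ℂ R} [GradedAlgebra 𝒜]
  {κ : Type w} [Field κ] [Algebra ℂ κ]

/-- The form of degree `N` with dehomogenisation `p`. -/
noncomputable def nwForm (N : ℕ) (p : κ[X]) : MvPolynomial (Fin 2) κ :=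
  ∑ i ∈ Finset.range (N + 1),
    MvPolynomial.monomial (Finsupp.single 0 (N - i) + Finsupp.single 1 i) (p.coeff i)

theorem nwForm_isHomogeneous (N : ℕ) (p : κ[X]) : (nwForm N p).IsHomogeneous N := by
  refine MvPolynomial.IsHomogeneous.sum _ _ _ fun i hi => ?_
  refine MvPolynomial.isHomogeneous_monomial _ ?_
  rw [Finset.mem_range] at hi
  simp only [map_add, Finsupp.degree_single]
  omega

theorem nwForm_coeff (N : ℕ) (p : κ[X]) {m : Fin 2 →₀ ℕ} (hm : m 0 + m 1 = N) :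
    (nwForm N p).coeff m = p.coeff (m 1) := by
  classical
  rw [nwForm, MvPolynomial.coeff_sum]
  have h1 : ∀ i ∈ Finset.range (N + 1),
      (MvPolynomial.monomial (Finsupp.single 0 (N - i) + Finsupp.single 1 i) (p.coeff i)).coeff m
        = if i = m 1 then p.coeff (m 1) else 0 := by
    intro i hi
    rw [Finset.mem_range] at hi
    rw [MvPolynomial.coeff_monomial]
    by_cases h : i = m 1
    · rw [if_pos h, if_pos, h]
      ext j
      fin_cases j
      · simp; omega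
      · simp [h]
    · rw [if_neg h, if_neg]
      intro h2
      apply h
      rw [← h2]
      simp
  rw [Finset.sum_congr rfl h1, Finset.sum_ite_eq']
  rw [if_pos (by rw [Finset.mem_range]; omega)]

/-- A form is determined by its coefficients. -/
theorem nw_form_ext {N : ℕ} {p q : MvPolynomial (Fin 2) κ} (hp : p.IsHomogeneous N)
    (hq : q.IsHomogeneous N) (h : ∀ m : Fin 2 →₀ ℕ, m 0 + m 1 = N → p.coeff m = q.coeff m) :
    p = q := by
  ext m
  by_cases hm : m 0 + m 1 = N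
  · exact h m hm
  · have hdeg : m.degree ≠ N := by
      rw [Finsupp.degree_eq_sum, Fin.sum_univ_two]
      exact hm
    rw [hp.coeff_eq_zero hdeg, hq.coeff_eq_zero hdeg]

/-- The dehomogenisation is injective on forms. -/
theorem nwDehom_injOn {N : ℕ} {p q : MvPolynomial (Fin 2) κ} (hp : p.IsHomogeneous N)
    (hq : q.IsHomogeneous N) (h : nwDehom κ 0 p = nwDehom κ 0 q) : p = q := by
  refine nw_form_ext hp hq fun m hm => ?_
  rw [← nwDehom_coeff 0 1 (by decide) hp hm, ← nwDehom_coeff 0 1 (by decide) hq hm, h]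

theorem nwDehom_nwForm {N : ℕ} {p : κ[X]} (hp : p.natDegree ≤ N) :
    nwDehom κ 0 (nwForm N p) = p := by
  ext i
  rcases Nat.lt_or_ge N i with h | h
  · rw [coeff_eq_zero_of_natDegree_lt (lt_of_le_of_lt hp h), coeff_eq_zero_of_natDegree_lt
      (lt_of_le_of_lt (nwDehom_natDegree_le 0 1 (by decide) (nwForm_isHomogeneous N p)) h)]
  · have h1 := nwDehom_coeff 0 1 (by decide) (nwForm_isHomogeneous N p)
      (m := Finsupp.single 0 (N - i) + Finsupp.single 1 i) (by simp; omega)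
    rw [nwForm_coeff N p (by simp; omega)] at h1
    simpa using h1

/-- Homogenisation of a homomorphism to polynomials in one variable. -/
theorem nw_homogenize (f : R →ₐ[ℂ] κ[X]) (d : ℕ)
    (hf : ∀ k, ∀ r ∈ 𝒜 k, (f r).natDegree ≤ d * k) :
    ∃ φ : R →ₐ[ℂ] MvPolynomial (Fin 2) κ, (∀ k, ∀ r ∈ 𝒜 k, (φ r).IsHomogeneous (d * k)) ∧
      (∀ k, ∀ r ∈ 𝒜 k, ∀ m : Fin 2 →₀ ℕ, m 0 + m 1 = d * k →
        (φ r).coeff m = (f r).coeff (m 1)) ∧ ∀ r, nwDehom κ 0 (φ r) = f r := by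
  classical
  let F : ∀ k, (𝒜 k) →ₗ[ℂ] MvPolynomial (Fin 2) κ := fun k =>
    { toFun := fun r => nwForm (d * k) (f (r : R))
      map_add' := fun a b => by
        refine nw_form_ext (nwForm_isHomogeneous _ _)
          ((nwForm_isHomogeneous _ _).add (nwForm_isHomogeneous _ _)) fun m hm => ?_
        rw [MvPolynomial.coeff_add, nwForm_coeff _ _ hm, nwForm_coeff _ _ hm,
          nwForm_coeff _ _ hm, Submodule.coe_add, map_add, coeff_add]
      map_smul' := fun c a => by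
        have h2 : (c • nwForm (d * k) (f (a : R))).IsHomogeneous (d * k) := by
          rw [← algebraMap_smul κ c (nwForm (d * k) (f (a : R)))]
          exact (MvPolynomial.homogeneousSubmodule (Fin 2) κ (d * k)).smul_mem _
            (nwForm_isHomogeneous _ _)
        refine nw_form_ext (nwForm_isHomogeneous _ _) h2 fun m hm => ?_
        rw [RingHom.id_apply, MvPolynomial.coeff_smul, nwForm_coeff _ _ hm,
          nwForm_coeff _ _ hm, Submodule.coe_smul, map_smul, coeff_smul] }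
  have hF : ∀ k (r : 𝒜 k), F k r = nwForm (d * k) (f (r : R)) := fun k r => rfl
  let c₀ : (DirectSum ℕ fun k => 𝒜 k) →ₐ[ℂ] MvPolynomial (Fin 2) κ :=
    DirectSum.toAlgebra ℂ (fun k => 𝒜 k) F (by
      rw [hF]
      change nwForm (d * 0) (f (1 : R)) = 1
      rw [map_one]
      have h1 : (1 : MvPolynomial (Fin 2) κ).IsHomogeneous (d * 0) := by
        rw [mul_zero]; exact MvPolynomial.isHomogeneous_one _ _
      refine nwDehom_injOn (nwForm_isHomogeneous _ _) h1 ?_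
      rw [nwDehom_nwForm (by rw [natDegree_one]; exact Nat.zero_le _), map_one]) (by
      intro i j a b
      rw [hF, hF, hF]
      change nwForm (d * (i + j)) (f ((a : R) * (b : R))) = _
      have h1 : (nwForm (d * i) (f (a : R)) * nwForm (d * j) (f (b : R))).IsHomogeneous
          (d * (i + j)) := by
        rw [mul_add]
        exact (nwForm_isHomogeneous _ _).mul (nwForm_isHomogeneous _ _)
      refine nwDehom_injOn (nwForm_isHomogeneous _ _) h1 ?_
      rw [map_mul (nwDehom κ 0), nwDehom_nwForm (hf i a a.2), nwDehom_nwForm (hf j b b.2),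
        nwDehom_nwForm, map_mul]
      rw [map_mul, mul_add]
      exact natDegree_mul_le.trans (Nat.add_le_add (hf i a a.2) (hf j b b.2)))
  let φ : R →ₐ[ℂ] MvPolynomial (Fin 2) κ := c₀.comp (DirectSum.decomposeAlgEquiv 𝒜).toAlgHom
  have hφ : ∀ k, ∀ r ∈ 𝒜 k, φ r = nwForm (d * k) (f r) := by
    intro k r hr
    have e2 : (DirectSum.decomposeAlgEquiv 𝒜) r = DirectSum.of (fun k => 𝒜 k) k ⟨r, hr⟩ := by
      rw [DirectSum.decomposeAlgEquiv_apply, DirectSum.decompose_of_mem 𝒜 hr]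
    change c₀ ((DirectSum.decomposeAlgEquiv 𝒜) r) = _
    rw [e2]
    change DirectSum.toModule ℂ ℕ _ F (DirectSum.lof ℂ ℕ (fun k => 𝒜 k) k ⟨r, hr⟩) = _
    rw [DirectSum.toModule_lof]
    rfl
  refine ⟨φ, fun k r hr => ?_, fun k r hr m hm => ?_, ?_⟩
  · rw [hφ k r hr]; exact nwForm_isHomogeneous _ _
  · rw [hφ k r hr]; exact nwForm_coeff _ _ hm
  · exact forall_of_homogeneous' (𝒜 := 𝒜) ((nwDehom κ 0).toLinearMap ∘ₗ φ.toLinearMap)
      f.toLinearMap (fun k r hr => by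
        change nwDehom κ 0 (φ r) = f r
        rw [hφ k r hr]
        exact nwDehom_nwForm (hf k r hr))

end Homogenize

section Dehom

variable {κ : Type w} [Field κ] [Algebra ℂ κ]

theorem eval_nwDehom_zero (p : MvPolynomial (Fin 2) κ) (x : κ) :
    (nwDehom κ 0 p).eval x = MvPolynomial.eval ![1, x] p := by
  have h : ((Polynomial.aeval x : κ[X] →ₐ[κ] κ).comp
      (MvPolynomial.aeval (fun j : Fin 2 => if j = 0 then (1 : κ[X]) else X)))
      = MvPolynomial.aeval ![1, x] := by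
    refine MvPolynomial.algHom_ext fun j => ?_
    fin_cases j <;> simp
  have := AlgHom.congr_fun h p
  rw [AlgHom.comp_apply, Polynomial.coe_aeval_eq_eval, MvPolynomial.aeval_eq_eval] at this
  exact this

theorem eval_nwDehom_one (p : MvPolynomial (Fin 2) κ) (x : κ) :
    (nwDehom κ 1 p).eval x = MvPolynomial.eval ![x, 1] p := by
  have h : ((Polynomial.aeval x : κ[X] →ₐ[κ] κ).comp
      (MvPolynomial.aeval (fun j : Fin 2 => if j = 1 then (1 : κ[X]) else X)))
      = MvPolynomial.aeval ![x, 1] := by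
    refine MvPolynomial.algHom_ext fun j => ?_
    fin_cases j <;> simp
  have := AlgHom.congr_fun h p
  rw [AlgHom.comp_apply, Polynomial.coe_aeval_eq_eval, MvPolynomial.aeval_eq_eval] at this
  exact this

/-- Scaling the argument of a form. -/
theorem eval_smul_form {N : ℕ} {p : MvPolynomial (Fin 2) κ} (hp : p.IsHomogeneous N)
    (c : κ) (a : Fin 2 → κ) :
    MvPolynomial.eval (c • a) p = c ^ N * MvPolynomial.eval a p := by
  rw [MvPolynomial.eval_eq', MvPolynomial.eval_eq', Finset.mul_sum]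
  refine Finset.sum_congr rfl fun d hd => ?_
  have h2 := hp (MvPolynomial.mem_support_iff.mp hd)
  rw [Finsupp.weight_apply, Finsupp.sum_fintype _ _ (by simp), Fin.sum_univ_two] at h2
  simp only [Fin.prod_univ_two, Pi.smul_apply, smul_eq_mul, Pi.one_apply, mul_one] at h2 ⊢
  rw [← h2, mul_pow, mul_pow, pow_add]
  ring

end Dehom

section Root

variable {L : Type v} [Field L] [Algebra ℂ L] {κ : Type w} [Field κ] [Algebra ℂ κ]
    {Γ : Type*} [LinearOrderedCommGroupWithZero Γ] {v : Valuation L Γ} {res : L → κ}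

/-- A root of `f` reduces to a root of the reduction, on the first line. -/
theorem nw_half_root (hp : IsPlace v res) {f : L[X]} {q : κ[X]} {k N : ℕ} {ρ : L}
    (hρ : ρ ≠ 0) (hN : k ≤ N) (hdeg : f.natDegree ≤ N) (hq : q.natDegree ≤ k)
    (hc : ∀ j ≤ k, q.coeff j = res (f.coeff j * ρ ^ j)) (hb : ∀ j, v (f.coeff j * ρ ^ j) ≤ 1)
    (hb' : ∀ j, k < j → v (f.coeff j * ρ ^ j) < 1) {x : L} (hx : v x ≤ v ρ)
    (h : f.eval x = 0) : q.eval (res (x / ρ)) = 0 := by
  have hvρ : v ρ ≠ 0 := (Valuation.ne_zero_iff v).mpr hρ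
  have hy : v (x / ρ) ≤ 1 := by
    rw [map_div₀]
    exact div_le_one_of_le₀ hx zero_le
  have h1 : f.eval x = ∑ j ∈ Finset.range (N + 1), (f.coeff j * ρ ^ j) * (x / ρ) ^ j := by
    rw [eval_eq_sum_range' (Nat.lt_succ_of_le hdeg)]
    refine Finset.sum_congr rfl fun j _ => ?_
    rw [mul_assoc, ← mul_pow, mul_div_cancel₀ x hρ]
  rw [h] at h1
  have h2 := congrArg res h1
  rw [hp.map_zero, hp.map_sum _ _ (fun j _ => by
    rw [map_mul, map_pow]
    exact mul_le_one' (hb j) (pow_le_one' hy j))] at h2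
  have h3 : ∀ j ∈ Finset.range (N + 1), res ((f.coeff j * ρ ^ j) * (x / ρ) ^ j)
      = q.coeff j * res (x / ρ) ^ j := by
    intro j _
    rw [hp.map_mul _ _ (hb j) (by rw [map_pow]; exact pow_le_one' hy j), hp.map_pow _ hy]
    congr 1
    rcases Nat.lt_or_ge k j with hj | hj
    · rw [coeff_eq_zero_of_natDegree_lt (lt_of_le_of_lt hq hj)]
      exact (hp.eq_zero_iff _ (hb j)).mpr (hb' j hj)
    · exact (hc j hj).symm
  rw [Finset.sum_congr rfl h3, ← eval_eq_sum_range' (by omega)] at h2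
  exact h2.symm

/-- The node case. -/
theorem nw_node_root (hp : IsPlace v res) {f : L[X]} {k : ℕ} {ρ : L}
    (hρ : ρ ≠ 0) (hdeg : f.natDegree ≤ 2 * k) (hb : ∀ j, v (f.coeff j * ρ ^ j) ≤ 1)
    (hb' : ∀ j ≤ 2 * k, v (f.coeff j * ρ ^ (2 * k - j)) ≤ 1) {x : L} (hx : v ρ < v x)
    (hx' : v (ρ * x) < 1) (h : f.eval x = 0) : v (f.coeff k * ρ ^ k) < 1 := by
  classical
  have hx0 : x ≠ 0 := by
    rintro rfl
    rw [map_zero] at hx
    exact absurd hx (not_lt.mpr zero_le)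
  have hvx : v x ≠ 0 := (Valuation.ne_zero_iff v).mpr hx0
  have hy : v (ρ / x) < 1 := by
    rw [map_div₀]
    exact (div_lt_one₀ (zero_lt_iff.mpr hvx)).mpr hx
  have h1 : ∑ j ∈ Finset.range (2 * k + 1), f.coeff j * x ^ j * (ρ / x) ^ k = 0 := by
    rw [← Finset.sum_mul, ← eval_eq_sum_range' (Nat.lt_succ_of_le hdeg), h, zero_mul]
  have hk : k ∈ Finset.range (2 * k + 1) := by rw [Finset.mem_range]; omega
  rw [← Finset.add_sum_erase _ _ hk] at h1
  have h2 : f.coeff k * x ^ k * (ρ / x) ^ k = f.coeff k * ρ ^ k := by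
    rw [mul_assoc, ← mul_pow, mul_div_cancel₀ ρ hx0]
  rw [h2] at h1
  have h3 : v (∑ j ∈ (Finset.range (2 * k + 1)).erase k, f.coeff j * x ^ j * (ρ / x) ^ k) < 1 := by
    refine v.map_sum_lt one_ne_zero fun j hj => ?_
    rw [Finset.mem_erase, Finset.mem_range] at hj
    rcases Nat.lt_or_ge j k with hjk | hjk
    · have e1 : f.coeff j * x ^ j * (ρ / x) ^ k
          = (f.coeff j * ρ ^ j) * (ρ / x) ^ (k - j) := by
        have e2 : (ρ / x) ^ k = (ρ / x) ^ j * (ρ / x) ^ (k - j) := by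
          rw [← pow_add]; congr 1; omega
        rw [e2, div_pow, div_pow]
        field_simp
      rw [e1, map_mul, map_pow]
      exact mul_lt_one_of_nonneg_of_lt_one_right (hb j) zero_le
        (pow_lt_one₀ zero_le hy (by omega))
    · have e1 : f.coeff j * x ^ j * (ρ / x) ^ k
          = (f.coeff j * ρ ^ (2 * k - j)) * (ρ * x) ^ (j - k) := by
        have e2 : x ^ j = x ^ k * x ^ (j - k) := by
          rw [← pow_add]; congr 1; omega
        have e3 : ρ ^ k = ρ ^ (2 * k - j) * ρ ^ (j - k) := by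
          rw [← pow_add]; congr 1; omega
        rw [e2, div_pow, e3, mul_pow]
        field_simp
      rw [e1, map_mul, map_pow v (ρ * x)]
      exact mul_lt_one_of_nonneg_of_lt_one_right (hb' j (by omega)) zero_le
        (pow_lt_one₀ zero_le hx' (by omega))
  rw [eq_neg_of_add_eq_zero_left h1, Valuation.map_neg]
  exact h3

end Root

/-- Coefficients beyond the middle are small. -/
theorem nw_small {L : Type v} [Field L] {Γ : Type*} [LinearOrderedCommGroupWithZero Γ]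
    {v : Valuation L Γ} {f g : L[X]} {k : ℕ} (hf : f.natDegree ≤ 2 * k)
    (hfg : ∀ i j, i + j = 2 * k → f.coeff i = g.coeff j) {ρ : L} (hρ : v ρ < 1)
    (hb : ∀ i, v (g.coeff i * ρ ^ i) ≤ 1) {i : ℕ} (hi : k < i) :
    v (f.coeff i * ρ ^ i) < 1 := by
  rcases Nat.lt_or_ge (2 * k) i with h | h
  · rw [coeff_eq_zero_of_natDegree_lt (by omega), zero_mul, map_zero]
    exact zero_lt_one
  · have h1 := hb (2 * k - i)
    rw [← hfg i (2 * k - i) (by omega)] at h1
    have e1 : f.coeff i * ρ ^ i = (f.coeff i * ρ ^ (2 * k - i)) * ρ ^ (2 * i - 2 * k) := by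
      have e2 : ρ ^ i = ρ ^ (2 * k - i) * ρ ^ (2 * i - 2 * k) := by
        rw [← pow_add]; congr 1; omega
      rw [e2]; ring
    rw [e1, map_mul, map_pow v ρ (2 * i - 2 * k)]
    exact mul_lt_one_of_nonneg_of_lt_one_right h1 zero_le
      (pow_lt_one₀ zero_le hρ (by omega))

section Chain

variable {R : Type u} [CommRing R] [Algebra ℂ R] {𝒜 : ℕ → Submodule ℂ R} [GradedAlgebra 𝒜]
  {P : R →ₗ[ℂ] R →ₗ[ℂ] R}
  {L : Type v} [Field L] [Algebra ℂ L] {κ : Type w} [Field κ] [Algebra ℂ κ]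
  {Γ : Type*} [LinearOrderedCommGroupWithZero Γ] {v : Valuation L Γ} {res : L → κ}

/-- The conic `φ` over `L` degenerates, at the place `res`, to the chain of the two lines
`Ψ₁`, `Ψ₂` with a common point at the parameter `(0, 1)`. -/
structure IsChain (𝒜 : ℕ → Submodule ℂ R) (v : Valuation L Γ) (res : L → κ)
    (φ : R →ₐ[ℂ] MvPolynomial (Fin 2) L) (ρ : L)
    (Ψ₁ Ψ₂ : R →ₐ[ℂ] MvPolynomial (Fin 2) κ) : Prop where
  ne_zero : ρ ≠ 0
  lt_one : v ρ < 1
  bound0 : ∀ r i, v ((nwDehom L 0 (φ r)).coeff i * ρ ^ i) ≤ 1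
  bound1 : ∀ r i, v ((nwDehom L 1 (φ r)).coeff i * ρ ^ i) ≤ 1
  homog₁ : ∀ k, ∀ r ∈ 𝒜 k, (Ψ₁ r).IsHomogeneous (1 * k)
  homog₂ : ∀ k, ∀ r ∈ 𝒜 k, (Ψ₂ r).IsHomogeneous (1 * k)
  coeff₁ : ∀ r i, (nwDehom κ 0 (Ψ₁ r)).coeff i = res ((nwDehom L 0 (φ r)).coeff i * ρ ^ i)
  coeff₂ : ∀ r i, (nwDehom κ 0 (Ψ₂ r)).coeff i = res ((nwDehom L 1 (φ r)).coeff i * ρ ^ i)
  node : ∃ k, 0 < k ∧ ∃ r ∈ 𝒜 k, MvPolynomial.eval ![0, 1] (Ψ₁ r) ≠ 0

/-- `Φ₀` is the reduction of the conic `φ`. -/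
structure IsRed (v : Valuation L Γ) (res : L → κ)
    (φ : R →ₐ[ℂ] MvPolynomial (Fin 2) L) (Φ₀ : R →ₐ[ℂ] MvPolynomial (Fin 2) κ) : Prop where
  bound : ∀ r m, v ((φ r).coeff m) ≤ 1
  coeff : ∀ r m, (Φ₀ r).coeff m = res ((φ r).coeff m)

theorem nw_eval_one_zero {κ : Type w} [Field κ] [Algebra ℂ κ] (p : MvPolynomial (Fin 2) κ) :
    MvPolynomial.eval ![1, 0] p = (nwDehom κ 0 p).coeff 0 := by
  rw [← eval_nwDehom_zero, coeff_zero_eq_eval_zero]

theorem nw_eval_zero_one {κ : Type w} [Field κ] [Algebra ℂ κ] (p : MvPolynomial (Fin 2) κ) :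
    MvPolynomial.eval ![0, 1] p = (nwDehom κ 1 p).coeff 0 := by
  rw [← eval_nwDehom_one, coeff_zero_eq_eval_zero]

/-- The two dehomogenisations of a form. -/
theorem nwDehom_coeff_symm {κ : Type w} [Field κ] [Algebra ℂ κ] {N : ℕ}
    {p : MvPolynomial (Fin 2) κ} (hp : p.IsHomogeneous N) {i j : ℕ} (hij : i + j = N) :
    (nwDehom κ 0 p).coeff i = (nwDehom κ 1 p).coeff j := by
  have e1 := nwDehom_coeff 0 1 (by decide) hp
    (m := Finsupp.single 0 j + Finsupp.single 1 i) (by simp; omega)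
  have e2 := nwDehom_coeff 1 0 (by decide) hp
    (m := Finsupp.single 0 j + Finsupp.single 1 i) (by simp; omega)
  simp at e1 e2
  rw [e1, e2]

variable {φ : R →ₐ[ℂ] MvPolynomial (Fin 2) L} {ρ : L}
  {Ψ₁ Ψ₂ : R →ₐ[ℂ] MvPolynomial (Fin 2) κ}

/-- A family of linear maps with integral values reduces to a linear map. -/
theorem nw_res_ext (hp : IsPlace v res) (f : R →ₗ[ℂ] κ) (g : R →ₗ[ℂ] L) (hg : ∀ r, v (g r) ≤ 1)
    (h : ∀ k, ∀ r ∈ 𝒜 k, f r = res (g r)) (r : R) : f r = res (g r) := by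
  let g' : R →ₗ[ℂ] κ :=
    { toFun := fun r => res (g r)
      map_add' := fun a b => by rw [map_add]; exact hp.map_add _ _ (hg a) (hg b)
      map_smul' := fun c a => by
        rw [map_smul, RingHom.id_apply, Algebra.smul_def, Algebra.smul_def,
          hp.map_mul _ _ (hp.le_one c) (hg a), hp.map_algebraMap] }
  exact forall_of_homogeneous' (𝒜 := 𝒜) f g' h r

theorem IsChain.end₁ (hc : IsChain 𝒜 v res φ ρ Ψ₁ Ψ₂) (r : R) :
    MvPolynomial.eval ![1, 0] (Ψ₁ r) = res (MvPolynomial.eval ![1, 0] (φ r)) := by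
  rw [nw_eval_one_zero, nw_eval_one_zero, hc.coeff₁, pow_zero, mul_one]

theorem IsChain.end₂ (hc : IsChain 𝒜 v res φ ρ Ψ₁ Ψ₂) (r : R) :
    MvPolynomial.eval ![1, 0] (Ψ₂ r) = res (MvPolynomial.eval ![0, 1] (φ r)) := by
  rw [nw_eval_one_zero, nw_eval_zero_one, hc.coeff₂, pow_zero, mul_one]

/-- The value at the node. -/
theorem IsChain.node₁ (hc : IsChain 𝒜 v res φ ρ Ψ₁ Ψ₂) {k : ℕ} {r : R} (hr : r ∈ 𝒜 k) :
    MvPolynomial.eval ![0, 1] (Ψ₁ r) = res ((nwDehom L 0 (φ r)).coeff k * ρ ^ k) := by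
  rw [nw_eval_zero_one, ← nwDehom_coeff_symm (hc.homog₁ k r hr) (i := k) (j := 0) (by omega),
    hc.coeff₁]

theorem IsChain.node₂ (hφ : ∀ k, ∀ r ∈ 𝒜 k, (φ r).IsHomogeneous (2 * k))
    (hc : IsChain 𝒜 v res φ ρ Ψ₁ Ψ₂) {k : ℕ} {r : R} (hr : r ∈ 𝒜 k) :
    MvPolynomial.eval ![0, 1] (Ψ₂ r) = res ((nwDehom L 0 (φ r)).coeff k * ρ ^ k) := by
  rw [nw_eval_zero_one, ← nwDehom_coeff_symm (hc.homog₂ k r hr) (i := k) (j := 0) (by omega),
    hc.coeff₂, nwDehom_coeff_symm (hφ k r hr) (i := k) (j := k) (by omega)]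

theorem IsChain.node_eq (hφ : ∀ k, ∀ r ∈ 𝒜 k, (φ r).IsHomogeneous (2 * k))
    (hc : IsChain 𝒜 v res φ ρ Ψ₁ Ψ₂) (r : R) :
    MvPolynomial.eval ![0, 1] (Ψ₁ r) = MvPolynomial.eval ![0, 1] (Ψ₂ r) := by
  have h := forall_of_homogeneous' (𝒜 := 𝒜)
    (((MvPolynomial.aeval ![0, 1] : MvPolynomial (Fin 2) κ →ₐ[κ] κ).restrictScalars
      ℂ).toLinearMap ∘ₗ Ψ₁.toLinearMap)
    (((MvPolynomial.aeval ![0, 1] : MvPolynomial (Fin 2) κ →ₐ[κ] κ).restrictScalars
      ℂ).toLinearMap ∘ₗ Ψ₂.toLinearMap) (fun k r hr => by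
        change MvPolynomial.aeval _ (Ψ₁ r) = MvPolynomial.aeval _ (Ψ₂ r)
        rw [MvPolynomial.aeval_eq_eval]
        exact (hc.node₁ hr).trans (hc.node₂ hφ hr).symm) r
  change MvPolynomial.aeval _ (Ψ₁ r) = MvPolynomial.aeval _ (Ψ₂ r) at h
  rwa [MvPolynomial.aeval_eq_eval] at h

theorem IsChain.small₀ (hφ : ∀ k, ∀ r ∈ 𝒜 k, (φ r).IsHomogeneous (2 * k))
    (hc : IsChain 𝒜 v res φ ρ Ψ₁ Ψ₂) {k : ℕ} {r : R} (hr : r ∈ 𝒜 k) {i : ℕ} (hi : k < i) :
    v ((nwDehom L 0 (φ r)).coeff i * ρ ^ i) < 1 :=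
  nw_small (nwDehom_natDegree_le 0 1 (by decide) (hφ k r hr))
    (fun i j hij => nwDehom_coeff_symm (hφ k r hr) hij) hc.lt_one (hc.bound1 r) hi

theorem IsChain.small₁ (hφ : ∀ k, ∀ r ∈ 𝒜 k, (φ r).IsHomogeneous (2 * k))
    (hc : IsChain 𝒜 v res φ ρ Ψ₁ Ψ₂) {k : ℕ} {r : R} (hr : r ∈ 𝒜 k) {i : ℕ} (hi : k < i) :
    v ((nwDehom L 1 (φ r)).coeff i * ρ ^ i) < 1 :=
  nw_small (nwDehom_natDegree_le 1 0 (by decide) (hφ k r hr))
    (fun i j hij => (nwDehom_coeff_symm (hφ k r hr) (by omega)).symm) hc.lt_one (hc.bound0 r) hi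

/-- **Good reduction or a chain of two lines.** -/
theorem good_or_chain [IsAlgClosed L] (hX : IsContactFano 𝒜 P) (hp : IsPlace v res)
    (hφ : ∀ k, ∀ r ∈ 𝒜 k, (φ r).IsHomogeneous (2 * k))
    (h10 : ∀ r, v (MvPolynomial.eval ![1, 0] (φ r)) ≤ 1)
    (h01 : ∀ r, v (MvPolynomial.eval ![0, 1] (φ r)) ≤ 1) :
    (∃ Φ₀ : R →ₐ[ℂ] MvPolynomial (Fin 2) κ, (∀ k, ∀ r ∈ 𝒜 k, (Φ₀ r).IsHomogeneous (2 * k)) ∧
      IsRed v res φ Φ₀) ∨
    ∃ (ρ : L) (Ψ₁ Ψ₂ : R →ₐ[ℂ] MvPolynomial (Fin 2) κ), IsChain 𝒜 v res φ ρ Ψ₁ Ψ₂ := by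
  have h01' : (0 : Fin 2) ≠ 1 := by decide
  have hf : ∀ k, ∀ r ∈ 𝒜 k, (((nwDehom L 0).comp φ) r).natDegree ≤ 2 * k :=
    fun k r hr => nwDehom_natDegree_le 0 1 h01' (hφ k r hr)
  have hg : ∀ k, ∀ r ∈ 𝒜 k, (((nwDehom L 1).comp φ) r).natDegree ≤ 2 * k :=
    fun k r hr => nwDehom_natDegree_le 1 0 h01'.symm (hφ k r hr)
  have hfg : ∀ k, ∀ r ∈ 𝒜 k, ∀ i j, i + j = 2 * k →
      (((nwDehom L 0).comp φ) r).coeff i = (((nwDehom L 1).comp φ) r).coeff j :=
    fun k r hr i j hij => nwDehom_coeff_symm (hφ k r hr) hij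
  obtain ⟨ρ, hρ0, hρ1, hF, hG, hM⟩ := nw_main v hX hp.le_one ((nwDehom L 0).comp φ)
    ((nwDehom L 1).comp φ) hf hg hfg
    (fun k r _ => by
      change v ((nwDehom L 0 (φ r)).coeff 0) ≤ 1
      rw [← nw_eval_one_zero]; exact h10 r)
    (fun k r _ => by
      change v ((nwDehom L 1 (φ r)).coeff 0) ≤ 1
      rw [← nw_eval_zero_one]; exact h01 r)
  rcases eq_or_lt_of_le hρ1 with hρ | hρ
  · -- good reduction
    left
    have hb : ∀ k, ∀ r ∈ 𝒜 k, ∀ m, v ((φ r).coeff m) ≤ 1 := by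
      intro k r hr m
      by_cases hm : m 0 + m 1 = 2 * k
      · have h1 := hF r (m 1)
        rw [AlgHom.comp_apply, nwDehom_coeff 0 1 h01' (hφ k r hr) hm, map_mul, map_pow, hρ,
          one_pow, mul_one] at h1
        exact h1
      · rw [(hφ k r hr).coeff_eq_zero (by
          rw [Finsupp.degree_eq_sum, Fin.sum_univ_two]; exact hm), map_zero]
        exact zero_le
    have hF' : ∀ r i, v ((((nwDehom L 0).comp φ) r).coeff i * (1 : L) ^ i) ≤ 1 := by
      intro r i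
      have h1 := hF r i
      rw [map_mul, map_pow, hρ, one_pow, mul_one] at h1
      rw [one_pow, mul_one]
      exact h1
    obtain ⟨Ψ, hΨ⟩ := hp.reduce ((nwDehom L 0).comp φ) 1 hF'
    obtain ⟨Φ₀, h1, h2, h3⟩ := nw_homogenize (𝒜 := 𝒜) Ψ 2 (fun k r hr => by
      rw [natDegree_le_iff_coeff_eq_zero]
      intro i hi
      rw [hΨ, coeff_eq_zero_of_natDegree_lt (lt_of_le_of_lt (hf k r hr) hi), zero_mul,
        hp.map_zero])
    have hbr : ∀ r m, v ((φ r).coeff m) ≤ 1 := by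
      classical
      intro r m
      rw [← DirectSum.sum_support_decompose 𝒜 r, map_sum, MvPolynomial.coeff_sum]
      exact v.map_sum_le fun k _ => hb k _ (SetLike.coe_mem _) m
    refine ⟨Φ₀, h1, hbr, fun r m => ?_⟩
    refine nw_res_ext (𝒜 := 𝒜) hp
      (((MvPolynomial.lcoeff κ m).restrictScalars ℂ) ∘ₗ Φ₀.toLinearMap)
      (((MvPolynomial.lcoeff L m).restrictScalars ℂ) ∘ₗ φ.toLinearMap)
      (fun r => hbr r m) (fun k r hr => ?_) r
    change (Φ₀ r).coeff m = res ((φ r).coeff m)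
    by_cases hm : m 0 + m 1 = 2 * k
    · rw [h2 k r hr m hm, hΨ, one_pow, mul_one, AlgHom.comp_apply,
        nwDehom_coeff 0 1 h01' (hφ k r hr) hm]
    · have hdeg : m.degree ≠ 2 * k := by
        rw [Finsupp.degree_eq_sum, Fin.sum_univ_two]; exact hm
      rw [(hφ k r hr).coeff_eq_zero hdeg, (h1 k r hr).coeff_eq_zero hdeg, hp.map_zero]
  · -- a chain
    right
    have hM' : ∃ k, 0 < k ∧ ∃ r ∈ 𝒜 k, v ((((nwDehom L 0).comp φ) r).coeff k * ρ ^ k) = 1 := by
      rcases hM with hM | hM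
      · exact absurd hM hρ.ne
      · exact hM
    obtain ⟨Ψ, hΨ⟩ := hp.reduce ((nwDehom L 0).comp φ) ρ hF
    obtain ⟨Ψ', hΨ'⟩ := hp.reduce ((nwDehom L 1).comp φ) ρ hG
    obtain ⟨Ψ₁, a1, a2, a3⟩ := nw_homogenize (𝒜 := 𝒜) Ψ 1 (fun k r hr => by
      rw [natDegree_le_iff_coeff_eq_zero]
      intro i hi
      rw [hΨ, hp.eq_zero_iff _ (hF r i)]
      exact nw_small (hf k r hr) (hfg k r hr) hρ (hG r) (by omega))
    obtain ⟨Ψ₂, b1, b2, b3⟩ := nw_homogenize (𝒜 := 𝒜) Ψ' 1 (fun k r hr => by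
      rw [natDegree_le_iff_coeff_eq_zero]
      intro i hi
      rw [hΨ', hp.eq_zero_iff _ (hG r i)]
      exact nw_small (hg k r hr) (fun i j hij => (hfg k r hr j i (by omega)).symm) hρ (hF r)
        (by omega))
    have c1 : ∀ r i, (nwDehom κ 0 (Ψ₁ r)).coeff i
        = res ((nwDehom L 0 (φ r)).coeff i * ρ ^ i) := fun r i => by rw [a3, hΨ]; rfl
    have c2 : ∀ r i, (nwDehom κ 0 (Ψ₂ r)).coeff i
        = res ((nwDehom L 1 (φ r)).coeff i * ρ ^ i) := fun r i => by rw [b3, hΨ']; rfl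
    refine ⟨ρ, Ψ₁, Ψ₂, hρ0, hρ, hF, hG, a1, b1, c1, c2, ?_⟩
    obtain ⟨k, hk, r, hr, h⟩ := hM'
    refine ⟨k, hk, r, hr, ?_⟩
    rw [nw_eval_zero_one, ← nwDehom_coeff_symm (a1 k r hr) (i := k) (j := 0) (by omega), c1]
    intro h0
    exact ((hp.eq_zero_iff _ (hF r k)).mp h0).ne h

/-- **Limit of a common zero**, at a chain. -/
theorem IsChain.root (hp : IsPlace v res) (hφ : ∀ k, ∀ r ∈ 𝒜 k, (φ r).IsHomogeneous (2 * k))
    (hc : IsChain 𝒜 v res φ ρ Ψ₁ Ψ₂) (I : Set R) (hI : ∀ r ∈ I, ∃ k, r ∈ 𝒜 k) {a : Fin 2 → L}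
    (ha : a ≠ 0) (h : ∀ r ∈ I, MvPolynomial.eval a (φ r) = 0) :
    ∃ u : Fin 2 → κ, u ≠ 0 ∧ ((∀ r ∈ I, MvPolynomial.eval u (Ψ₁ r) = 0) ∨
      ∀ r ∈ I, MvPolynomial.eval u (Ψ₂ r) = 0) := by
  have hρ := hc.ne_zero
  have hvρ : v ρ ≠ 0 := (Valuation.ne_zero_iff v).mpr hρ
  have hz : ∀ x y : L, (![x, y] : Fin 2 → L) = 0 → x = 0 ∧ y = 0 := by
    intro x y h
    exact ⟨by simpa using congrFun h 0, by simpa using congrFun h 1⟩
  -- a root `x = t / s`
  have hroot0 : ∀ x : L, a = (a 0) • ![1, x] → a 0 ≠ 0 → ∀ r ∈ I,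
      (nwDehom L 0 (φ r)).eval x = 0 := by
    intro x hx h0 r hr
    obtain ⟨k, hk⟩ := hI r hr
    have h1 := h r hr
    rw [hx, eval_smul_form (hφ k r hk), ← eval_nwDehom_zero] at h1
    exact (mul_eq_zero.mp h1).resolve_left (pow_ne_zero _ h0)
  have hroot1 : ∀ x : L, a = (a 1) • ![x, 1] → a 1 ≠ 0 → ∀ r ∈ I,
      (nwDehom L 1 (φ r)).eval x = 0 := by
    intro x hx h0 r hr
    obtain ⟨k, hk⟩ := hI r hr
    have h1 := h r hr
    rw [hx, eval_smul_form (hφ k r hk), ← eval_nwDehom_one] at h1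
    exact (mul_eq_zero.mp h1).resolve_left (pow_ne_zero _ h0)
  -- the root reduces to a point of the first line
  have case0 : ∀ x : L, v x ≤ v ρ → (∀ r ∈ I, (nwDehom L 0 (φ r)).eval x = 0) →
      ∀ r ∈ I, MvPolynomial.eval ![1, res (x / ρ)] (Ψ₁ r) = 0 := by
    intro x hx hr0 r hr
    obtain ⟨k, hk⟩ := hI r hr
    rw [← eval_nwDehom_zero]
    exact nw_half_root hp hρ (Nat.le_mul_of_pos_left k two_pos)
      (nwDehom_natDegree_le 0 1 (by decide) (hφ k r hk))
      (by simpa using nwDehom_natDegree_le 0 1 (by decide) (hc.homog₁ k r hk))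
      (fun j _ => hc.coeff₁ r j) (hc.bound0 r) (fun j hj => hc.small₀ hφ hk hj) hx (hr0 r hr)
  have case1 : ∀ x : L, v x ≤ v ρ → (∀ r ∈ I, (nwDehom L 1 (φ r)).eval x = 0) →
      ∀ r ∈ I, MvPolynomial.eval ![1, res (x / ρ)] (Ψ₂ r) = 0 := by
    intro x hx hr0 r hr
    obtain ⟨k, hk⟩ := hI r hr
    rw [← eval_nwDehom_zero]
    exact nw_half_root hp hρ (Nat.le_mul_of_pos_left k two_pos)
      (nwDehom_natDegree_le 1 0 (by decide) (hφ k r hk))
      (by simpa using nwDehom_natDegree_le 0 1 (by decide) (hc.homog₂ k r hk))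
      (fun j _ => hc.coeff₂ r j) (hc.bound1 r) (fun j hj => hc.small₁ hφ hk hj) hx (hr0 r hr)
  have hne : ∀ y : κ, (![1, y] : Fin 2 → κ) ≠ 0 := by
    intro y h
    have := congrFun h 0
    simp at this
  by_cases h0 : a 0 = 0
  · have h1 : a 1 ≠ 0 := by
      intro h1
      apply ha
      funext j
      fin_cases j
      · exact h0
      · exact h1
    refine ⟨![1, res (0 / ρ)], hne _, Or.inr (case1 0 (by rw [map_zero]; exact zero_le)
      (hroot1 0 ?_ h1))⟩
    funext j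
    fin_cases j
    · simpa using h0
    · simp
  · set x := a 1 / a 0 with hx
    have hax : a = (a 0) • ![1, x] := by
      funext j
      fin_cases j
      · simp
      · change a 1 = a 0 * (a 1 / a 0)
        rw [mul_div_cancel₀ _ h0]
    rcases le_or_gt (v x) (v ρ) with hxρ | hxρ
    · exact ⟨![1, res (x / ρ)], hne _, Or.inl (case0 x hxρ (hroot0 x hax h0))⟩
    · have hx0 : x ≠ 0 := by
        intro h'
        rw [h', map_zero] at hxρ
        exact absurd hxρ (not_lt.mpr zero_le)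
      have hvx : v x ≠ 0 := (Valuation.ne_zero_iff v).mpr hx0
      have ha1 : a 1 ≠ 0 := by
        intro h'
        rw [hx, h', zero_div] at hx0
        exact hx0 rfl
      rcases le_or_gt 1 (v (ρ * x)) with h2 | h2
      · -- close to the other end
        have h3 : v x⁻¹ ≤ v ρ := by
          rw [map_inv₀]
          rw [map_mul] at h2
          rw [inv_le_iff_one_le_mul₀ (zero_lt_iff.mpr hvx)]
          exact h2
        refine ⟨![1, res (x⁻¹ / ρ)], hne _, Or.inr (case1 x⁻¹ h3 (hroot1 x⁻¹ ?_ ha1))⟩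
        funext j
        fin_cases j
        · simp only [Fin.zero_eta, Pi.smul_apply, Matrix.cons_val_zero, smul_eq_mul]
          rw [hx, inv_div, mul_div_cancel₀ _ ha1]
        · simp
      · -- the node
        refine ⟨![0, 1], fun h' => ?_, Or.inl fun r hr => ?_⟩
        · have := congrFun h' 1
          simp at this
        · obtain ⟨k, hk⟩ := hI r hr
          rw [hc.node₁ hk, hp.eq_zero_iff _ (hc.bound0 r k)]
          refine nw_node_root hp hρ (nwDehom_natDegree_le 0 1 (by decide) (hφ k r hk))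
            (hc.bound0 r) (fun j hj => ?_) hxρ h2 (hroot0 x hax h0 r hr)
          rw [nwDehom_coeff_symm (hφ k r hk) (i := j) (j := 2 * k - j) (by omega)]
          exact hc.bound1 r _

/-- **Limit of a common zero**, good reduction. -/
theorem IsRed.root (hp : IsPlace v res) {d : ℕ}
    (hφ : ∀ k, ∀ r ∈ 𝒜 k, (φ r).IsHomogeneous (d * k))
    {Φ₀ : R →ₐ[ℂ] MvPolynomial (Fin 2) κ} (hc : IsRed v res φ Φ₀) (I : Set R)
    (hI : ∀ r ∈ I, ∃ k, r ∈ 𝒜 k) {a : Fin 2 → L}
    (ha : a ≠ 0) (h : ∀ r ∈ I, MvPolynomial.eval a (φ r) = 0) :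
    ∃ u : Fin 2 → κ, u ≠ 0 ∧ ∀ r ∈ I, MvPolynomial.eval u (Φ₀ r) = 0 := by
  -- evaluation at integral arguments commutes with reduction
  have hev : ∀ (b : Fin 2 → L), (∀ j, v (b j) ≤ 1) → ∀ r,
      MvPolynomial.eval (fun j => res (b j)) (Φ₀ r) = res (MvPolynomial.eval b (φ r)) := by
    intro b hb r
    classical
    have hsub : (Φ₀ r).support ⊆ (φ r).support := by
      intro m hm
      rw [MvPolynomial.mem_support_iff] at hm ⊢
      intro h0
      apply hm
      rw [hc.coeff, h0, hp.map_zero]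
    rw [MvPolynomial.eval_eq', MvPolynomial.eval_eq', hp.map_sum]
    · rw [Finset.sum_subset hsub (fun m _ hm => by
        rw [MvPolynomial.notMem_support_iff.mp hm, zero_mul])]
      refine Finset.sum_congr rfl fun m _ => ?_
      rw [Fin.prod_univ_two, Fin.prod_univ_two, hp.map_mul _ _ (hc.bound r m) (by
        rw [map_mul, map_pow, map_pow]
        exact mul_le_one' (pow_le_one' (hb 0) _) (pow_le_one' (hb 1) _)),
        hp.map_mul _ _ (by rw [map_pow]; exact pow_le_one' (hb 0) _)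
          (by rw [map_pow]; exact pow_le_one' (hb 1) _), hp.map_pow _ (hb 0),
        hp.map_pow _ (hb 1), hc.coeff]
    · intro m _
      rw [Fin.prod_univ_two, map_mul, map_mul, map_pow, map_pow]
      exact mul_le_one' (hc.bound r m) (mul_le_one' (pow_le_one' (hb 0) _)
        (pow_le_one' (hb 1) _))
  -- normalise the parameter
  obtain ⟨c, hc0, b, hb, hbc, j, hj⟩ : ∃ c : L, c ≠ 0 ∧ ∃ b : Fin 2 → L, (∀ j, v (b j) ≤ 1) ∧
      b = c • a ∧ ∃ j, v (b j) = 1 := by
    have hz : ∃ j, a j ≠ 0 := by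
      by_contra hcon
      push Not at hcon
      exact ha (funext hcon)
    obtain ⟨i, -, hi⟩ := Finset.exists_max_image Finset.univ (fun j => v (a j)) ⟨0, by simp⟩
    have hai : a i ≠ 0 := by
      intro h0
      obtain ⟨j, hj⟩ := hz
      have h1 := hi j (Finset.mem_univ j)
      rw [h0, map_zero] at h1
      exact hj ((Valuation.zero_iff v).mp (le_antisymm h1 zero_le))
    have hvi : v (a i) ≠ 0 := (Valuation.ne_zero_iff v).mpr hai
    refine ⟨(a i)⁻¹, inv_ne_zero hai, (a i)⁻¹ • a, fun j => ?_, rfl, i, ?_⟩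
    · rw [Pi.smul_apply, smul_eq_mul, map_mul, map_inv₀]
      rw [inv_mul_le_iff₀ (zero_lt_iff.mpr hvi), mul_one]
      exact hi j (Finset.mem_univ j)
    · rw [Pi.smul_apply, smul_eq_mul, inv_mul_cancel₀ hai, map_one]
  refine ⟨fun j => res (b j), fun h0 => ?_, fun r hr => ?_⟩
  · have h1 := congrFun h0 j
    have h2 := (hp.eq_zero_iff _ (hb j)).mp h1
    exact h2.ne hj
  · obtain ⟨k, hk⟩ := hI r hr
    rw [hev b hb r, hbc, eval_smul_form (hφ k r hk), h r hr, mul_zero, hp.map_zero]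

end Chain

end Vale.Agent.P292
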